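import Vale.Agent.P155.Defs2

/-!
# P155, block G4/G5: distances, maximum principle, Dirichlet problem
-/

namespace Vale.Agent.P155.G45

open Finset

/-! ## distances -/

theorem dn_eq (u v : Pt) : dn u v = max (u.1 - v.1).natAbs (u.2 - v.2).natAbs := by
  unfold dn dinf
  rw [Int.abs_eq_natAbs, Int.abs_eq_natAbs]
  omega

theorem dn_self (u : Pt) : dn u u = 0 := by simp [dn_eq]

theorem dn_comm (u v : Pt) : dn u v = dn v u := by
  rw [dn_eq, dn_eq]; omega

theorem dn_tri (u v w : Pt) : dn u w ≤ dn u v + dn v w := by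
  rw [dn_eq, dn_eq, dn_eq]; omega

theorem dn_eq_zero {u v : Pt} : dn u v = 0 ↔ u = v := by
  rw [dn_eq]
  constructor
  · intro h
    ext <;> omega
  · rintro rfl; simp

theorem mem_box {x v : Pt} {r : ℕ} : v ∈ box x r ↔ dn x v ≤ r := by
  rw [dn_eq]
  unfold box
  rw [Finset.mem_product, Finset.mem_Icc, Finset.mem_Icc]
  omega

theorem dn_le_iff {x v : Pt} {r : ℕ} : dn x v ≤ r ↔
    (x.1 - r ≤ v.1 ∧ v.1 ≤ x.1 + r) ∧ (x.2 - r ≤ v.2 ∧ v.2 ≤ x.2 + r) := by
  rw [dn_eq]; omega

theorem card_box (x : Pt) (r : ℕ) : (box x r).card = (2 * r + 1) ^ 2 := by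
  unfold box
  rw [Finset.card_product, Int.card_Icc, Int.card_Icc]
  have h1 : (x.1 + (r : ℤ) + 1 - (x.1 - r)).toNat = 2 * r + 1 := by omega
  have h2 : (x.2 + (r : ℤ) + 1 - (x.2 - r)).toNat = 2 * r + 1 := by omega
  rw [h1, h2, sq]

theorem exists_notMem {O : Set Pt} (hO : O.Finite) : ∃ q, q ∉ O := by
  by_contra h
  push Not at h
  have : (Set.univ : Set Pt).Finite := hO.subset (fun x _ => h x)
  exact Set.infinite_univ this

/-! ## distance to the complement -/

theorem dF_le {O : Set Pt} {x y : Pt} (hy : y ∉ O) : dF O x ≤ dn x y :=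
  Nat.sInf_le ⟨y, hy, le_rfl⟩

theorem exists_dF {O : Set Pt} (hO : ∃ q, q ∉ O) (x : Pt) : ∃ y, y ∉ O ∧ dn x y = dF O x := by
  obtain ⟨q, hq⟩ := hO
  have hne : {r | ∃ y, y ∉ O ∧ dn x y ≤ r}.Nonempty := ⟨dn x q, q, hq, le_rfl⟩
  obtain ⟨y, hy, hle⟩ := Nat.sInf_mem hne
  exact ⟨y, hy, le_antisymm hle (dF_le hy)⟩

theorem dF_of_notMem {O : Set Pt} {x : Pt} (hx : x ∉ O) : dF O x = 0 := by
  have := dF_le (x := x) hx
  rw [dn_self] at this
  omega

theorem mem_of_lt_dF {O : Set Pt} {x y : Pt} (h : dn x y < dF O x) : y ∈ O := by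
  by_contra hy
  exact absurd (dF_le (x := x) hy) (not_le.2 h)

theorem mem_of_dF_pos {O : Set Pt} {x : Pt} (h : 0 < dF O x) : x ∈ O := by
  apply mem_of_lt_dF (x := x)
  rwa [dn_self]

theorem dF_pos {O : Set Pt} (hO : ∃ q, q ∉ O) {x : Pt} (hx : x ∈ O) : 0 < dF O x := by
  obtain ⟨y, hy, hd⟩ := exists_dF hO x
  rcases Nat.eq_zero_or_pos (dF O x) with h | h
  · rw [h] at hd
    rw [dn_eq_zero] at hd
    exact absurd (hd ▸ hx) hy
  · exact h

theorem dF_lip {O : Set Pt} (hO : ∃ q, q ∉ O) (x y : Pt) : dF O x ≤ dF O y + dn x y := by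
  obtain ⟨z, hz, hd⟩ := exists_dF hO y
  have h1 := dF_le (x := x) hz
  have h2 := dn_tri x y z
  omega

/-! ## the Laplacian -/

theorem lap_add (u v : Pt → ℝ) (x : Pt) : lap (fun y => u y + v y) x = lap u x + lap v x := by
  unfold lap; ring

theorem lap_sub (u v : Pt → ℝ) (x : Pt) : lap (fun y => u y - v y) x = lap u x - lap v x := by
  unfold lap; ring

theorem lap_neg (u : Pt → ℝ) (x : Pt) : lap (fun y => - u y) x = - lap u x := by
  unfold lap; ring

theorem lap_smul (c : ℝ) (u : Pt → ℝ) (x : Pt) : lap (fun y => c * u y) x = c * lap u x := by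
  unfold lap; ring

theorem lap_const (c : ℝ) (x : Pt) : lap (fun _ => c) x = 0 := by
  unfold lap; ring

/-- Maximum principle on a finite set. -/
theorem max_principle {O : Set Pt} (hO : O.Finite) {u : Pt → ℝ}
    (hsub : ∀ x ∈ O, 0 ≤ lap u x) (hoff : ∀ x, x ∉ O → u x ≤ 0) : ∀ x, u x ≤ 0 := by
  classical
  by_contra hcon
  push Not at hcon
  obtain ⟨x0, hx0⟩ := hcon
  have hx0O : x0 ∈ O := by
    by_contra h
    exact absurd (hoff x0 h) (not_le.2 hx0)
  set S := hO.toFinset with hS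
  have hSne : S.Nonempty := ⟨x0, by simpa [hS] using hx0O⟩
  obtain ⟨m, hmS, hm⟩ := S.exists_max_image u hSne
  set M := u m with hM
  have hMpos : 0 < M := lt_of_lt_of_le hx0 (hm x0 (by simpa [hS] using hx0O))
  have hle : ∀ y, u y ≤ M := by
    intro y
    by_cases hy : y ∈ O
    · exact hm y (by simpa [hS] using hy)
    · exact (hoff y hy).trans hMpos.le
  -- among the maximal points choose the rightmost
  set A := S.filter (fun y => u y = M) with hA
  have hAne : A.Nonempty := ⟨m, by simp [hA, hmS, hM]⟩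
  obtain ⟨a, haA, ha⟩ := A.exists_max_image (fun y => y.1) hAne
  have haS : a ∈ S := (Finset.mem_filter.1 haA).1
  have hau : u a = M := (Finset.mem_filter.1 haA).2
  have haO : a ∈ O := by simpa [hS] using haS
  have h0 := hsub a haO
  unfold lap at h0
  have h1 := hle (a.1 + 1, a.2)
  have h2 := hle (a.1 - 1, a.2)
  have h3 := hle (a.1, a.2 + 1)
  have h4 := hle (a.1, a.2 - 1)
  have h5 : u (a.1 + 1, a.2) = M := by
    rw [hau] at h0
    linarith
  have h6 : (a.1 + 1, a.2) ∈ O := by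
    by_contra h
    have := hoff _ h
    rw [h5] at this
    linarith
  have h7 : ((a.1 + 1, a.2) : Pt) ∈ A := by
    rw [hA, Finset.mem_filter]
    exact ⟨by simpa [hS] using h6, h5⟩
  have := ha _ h7
  simp at this

/-- Comparison principle. -/
theorem comparison {O : Set Pt} (hO : O.Finite) {u v : Pt → ℝ}
    (hlap : ∀ x ∈ O, lap v x ≤ lap u x) (hoff : ∀ x, x ∉ O → u x ≤ v x) : ∀ x, u x ≤ v x := by
  intro x
  have := max_principle hO (u := fun y => u y - v y)
    (fun y hy => by rw [lap_sub]; linarith [hlap y hy])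
    (fun y hy => by linarith [hoff y hy]) x
  linarith

/-! ## existence and uniqueness -/

theorem green_unique {O : Set Pt} (hO : O.Finite) {φ u v : Pt → ℝ} (hu : IsGreen O φ u)
    (hv : IsGreen O φ v) : u = v := by
  funext x
  apply le_antisymm
  · exact comparison hO (fun y hy => by linarith [hu.eq y hy, hv.eq y hy])
      (fun y hy => by rw [hu.off y hy, hv.off y hy]) x
  · exact comparison hO (fun y hy => by linarith [hu.eq y hy, hv.eq y hy])
      (fun y hy => by rw [hu.off y hy, hv.off y hy]) x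

open Classical in
theorem exists_green {O : Set Pt} (hO : O.Finite) (φ : Pt → ℝ) : ∃ u, IsGreen O φ u := by
  have : Fintype O := hO.fintype
  -- extension by zero
  let ext : (O → ℝ) → Pt → ℝ := fun f x => if h : x ∈ O then f ⟨x, h⟩ else 0
  have ext_add : ∀ f g : O → ℝ, ext (f + g) = fun y => ext f y + ext g y := by
    intro f g; funext y
    by_cases h : y ∈ O <;> simp [ext, h]
  have ext_smul : ∀ (c : ℝ) (f : O → ℝ), ext (c • f) = fun y => c * ext f y := by
    intro c f; funext y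
    by_cases h : y ∈ O <;> simp [ext, h]
  let T : (O → ℝ) →ₗ[ℝ] (O → ℝ) :=
    { toFun := fun f x => - lap (ext f) x
      map_add' := by
        intro f g; funext x
        simp only [Pi.add_apply]
        rw [ext_add, lap_add]; ring
      map_smul' := by
        intro c f; funext x
        simp only [Pi.smul_apply, smul_eq_mul, RingHom.id_apply]
        rw [ext_smul, lap_smul]; ring }
  have hinj : Function.Injective T := by
    rw [← LinearMap.ker_eq_bot, LinearMap.ker_eq_bot']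
    intro f hf
    have hG : IsGreen O (fun _ => 0) (ext f) :=
      { off := fun x hx => by simp [ext, hx]
        eq := fun x hx => by
          have := congrFun hf ⟨x, hx⟩
          simpa [T] using this }
    have hZ : IsGreen O (fun _ => 0) (fun _ => (0 : ℝ)) :=
      { off := fun x _ => rfl
        eq := fun x _ => by rw [lap_const]; simp }
    have h := green_unique hO hG hZ
    funext x
    have h2 := congrFun h x
    simpa [ext] using h2
  have hsurj : Function.Surjective T := LinearMap.injective_iff_surjective.1 hinj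
  obtain ⟨f, hf⟩ := hsurj (fun x => φ x)
  refine ⟨ext f, fun x hx => by simp [ext, hx], fun x hx => ?_⟩
  exact congrFun hf ⟨x, hx⟩

/-- Dirichlet problem with data: `w = f` off `D`, `-Δw = φ` on `D`. -/
theorem exists_dirichlet {D : Set Pt} (hD : D.Finite) (φ f : Pt → ℝ) :
    ∃ w : Pt → ℝ, (∀ x, x ∉ D → w x = f x) ∧ ∀ x ∈ D, - lap w x = φ x := by
  obtain ⟨u, hu⟩ := exists_green hD (fun x => φ x + lap f x)
  refine ⟨fun y => f y + u y, fun x hx => by simp [hu.off x hx], fun x hx => ?_⟩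
  rw [lap_add]
  linarith [hu.eq x hx]

theorem green_nonneg {O : Set Pt} (hO : O.Finite) {φ u : Pt → ℝ} (hu : IsGreen O φ u)
    (hφ : ∀ x ∈ O, 0 ≤ φ x) : ∀ x, 0 ≤ u x := by
  intro x
  have := comparison hO (u := fun _ => 0) (v := u)
    (fun y hy => by rw [lap_const]; linarith [hu.eq y hy, hφ y hy])
    (fun y hy => by rw [hu.off y hy]) x
  exact this

/-- Supersolutions dominate Green potentials. -/
theorem green_le_super {O : Set Pt} (hO : O.Finite) {φ u w : Pt → ℝ} (hu : IsGreen O φ u)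
    (hw : ∀ x ∈ O, φ x ≤ - lap w x) (hw0 : ∀ x, x ∉ O → 0 ≤ w x) : ∀ x, u x ≤ w x :=
  comparison hO (fun y hy => by linarith [hu.eq y hy, hw y hy])
    (fun y hy => by rw [hu.off y hy]; exact hw0 y hy)

/-- Subsolutions are below Green potentials. -/
theorem sub_le_green {O : Set Pt} (hO : O.Finite) {φ u w : Pt → ℝ} (hu : IsGreen O φ u)
    (hw : ∀ x ∈ O, - lap w x ≤ φ x) (hw0 : ∀ x, x ∉ O → w x ≤ 0) : ∀ x, w x ≤ u x :=
  comparison hO (fun y hy => by linarith [hu.eq y hy, hw y hy])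
    (fun y hy => by rw [hu.off y hy]; exact hw0 y hy)

theorem abs_green_le {O : Set Pt} (hO : O.Finite) {φ ψ u v : Pt → ℝ} (hu : IsGreen O φ u)
    (hv : IsGreen O ψ v) (h : ∀ x ∈ O, |φ x| ≤ ψ x) : ∀ x, |u x| ≤ v x := by
  intro x
  rw [abs_le]
  constructor
  · have := sub_le_green hO hu (w := fun y => - v y)
      (fun y hy => by rw [lap_neg]; linarith [hv.eq y hy, (abs_le.1 (h y hy)).1])
      (fun y hy => by rw [hv.off y hy]; simp) x
    exact this
  · exact green_le_super hO hu (w := v)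
      (fun y hy => by linarith [hv.eq y hy, (abs_le.1 (h y hy)).2])
      (fun y hy => by rw [hv.off y hy]) x

/-! ## Green's identity -/

theorem lap_support {O : Set Pt} {u : Pt → ℝ} (hu : ∀ x, x ∉ O → u x = 0) :
    Function.support u ⊆ O := by
  intro x hx
  by_contra h
  exact hx (hu x h)

/-- Summation by parts for finitely supported functions. -/
theorem finsum_lap_mul {u v : Pt → ℝ} (hu : (Function.support u).Finite)
    (hv : (Function.support v).Finite) :
    ∑ᶠ x, lap u x * v x = ∑ᶠ x, u x * lap v x := by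
  -- shift lemma
  have shift : ∀ (e : Pt) (f g : Pt → ℝ), (Function.support f).Finite →
      ∑ᶠ x : Pt, f (x + e) * g x = ∑ᶠ x : Pt, f x * g (x - e) := by
    intro e f g _
    have := finsum_comp_equiv (Equiv.subRight e) (f := fun x : Pt => f (x + e) * g x)
    rw [← this]
    apply finsum_congr
    intro x
    simp
  have e1 : ∀ (f : Pt → ℝ) (x : Pt), lap f x = f (x + (1, 0)) + f (x + (-1, 0)) + f (x + (0, 1)) +
      f (x + (0, -1)) - 4 * f x := by
    intro f x
    unfold lap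
    have h1 : (x.1 + 1, x.2) = x + ((1, 0) : Pt) := by ext <;> simp
    have h2 : (x.1 - 1, x.2) = x + ((-1, 0) : Pt) := by ext <;> simp [sub_eq_add_neg]
    have h3 : (x.1, x.2 + 1) = x + ((0, 1) : Pt) := by ext <;> simp
    have h4 : (x.1, x.2 - 1) = x + ((0, -1) : Pt) := by ext <;> simp [sub_eq_add_neg]
    rw [h1, h2, h3, h4]
  have hfin1 : ∀ (f g : Pt → ℝ), (Function.support g).Finite →
      (Function.support (fun x => f x * g x)).Finite := by
    intro f g hg
    exact hg.subset (fun x hx => by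
      intro h0
      apply hx
      simp only [h0, mul_zero])
  have hfin2 : ∀ (f g : Pt → ℝ), (Function.support f).Finite →
      (Function.support (fun x => f x * g x)).Finite := by
    intro f g hg
    exact hg.subset (fun x hx => by
      intro h0
      apply hx
      simp only [h0, zero_mul])
  have hL : ∑ᶠ x, lap u x * v x = (∑ᶠ x : Pt, u (x + (1, 0)) * v x) +
      (∑ᶠ x : Pt, u (x + (-1, 0)) * v x) + (∑ᶠ x : Pt, u (x + (0, 1)) * v x) +
      (∑ᶠ x : Pt, u (x + (0, -1)) * v x) + ∑ᶠ x : Pt, (-4 * u x) * v x := by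
    rw [← finsum_add_distrib (hfin1 _ _ hv) (hfin1 _ _ hv),
      ← finsum_add_distrib ?_ (hfin1 _ _ hv), ← finsum_add_distrib ?_ (hfin1 _ _ hv),
      ← finsum_add_distrib ?_ (hfin1 _ _ hv)]
    · apply finsum_congr
      intro x
      rw [e1]; ring
    · refine hv.subset (fun x hx h0 => hx ?_)
      simp only [h0, mul_zero, add_zero]
    · refine hv.subset (fun x hx h0 => hx ?_)
      simp only [h0, mul_zero, add_zero]
    · refine hv.subset (fun x hx h0 => hx ?_)
      simp only [h0, mul_zero, add_zero]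
  have hR : ∑ᶠ x, u x * lap v x = (∑ᶠ x : Pt, u x * v (x + (-1, 0))) +
      (∑ᶠ x : Pt, u x * v (x + (1, 0))) + (∑ᶠ x : Pt, u x * v (x + (0, -1))) +
      (∑ᶠ x : Pt, u x * v (x + (0, 1))) + ∑ᶠ x : Pt, (-4 * u x) * v x := by
    rw [← finsum_add_distrib (hfin2 _ _ hu) (hfin2 _ _ hu),
      ← finsum_add_distrib ?_ (hfin2 _ _ hu), ← finsum_add_distrib ?_ (hfin2 _ _ hu),
      ← finsum_add_distrib ?_ (hfin1 _ _ hv)]
    · apply finsum_congr
      intro x
      rw [e1]; ring
    · refine hu.subset (fun x hx h0 => hx ?_)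
      simp only [h0, zero_mul, add_zero]
    · refine hu.subset (fun x hx h0 => hx ?_)
      simp only [h0, zero_mul, add_zero]
    · refine hu.subset (fun x hx h0 => hx ?_)
      simp only [h0, zero_mul, add_zero]
  have s1 := shift (1, 0) u v hu
  have s2 := shift (-1, 0) u v hu
  have s3 := shift (0, 1) u v hu
  have s4 := shift (0, -1) u v hu
  have c1 : ∀ x : Pt, x - (1, 0) = x + (-1, 0) := by intro x; ext <;> simp [sub_eq_add_neg]
  have c2 : ∀ x : Pt, x - (-1, 0) = x + (1, 0) := by intro x; ext <;> simp [sub_eq_add_neg]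
  have c3 : ∀ x : Pt, x - (0, 1) = x + (0, -1) := by intro x; ext <;> simp [sub_eq_add_neg]
  have c4 : ∀ x : Pt, x - (0, -1) = x + (0, 1) := by intro x; ext <;> simp [sub_eq_add_neg]
  simp only [c1] at s1
  simp only [c2] at s2
  simp only [c3] at s3
  simp only [c4] at s4
  rw [hL, hR, s1, s2, s3, s4]

/-- Symmetry of the Green operator. -/
theorem green_symm {O : Set Pt} (hO : O.Finite) {φ ψ u v : Pt → ℝ} (hu : IsGreen O φ u)
    (hv : IsGreen O ψ v) : ∑ᶠ x, φ x * v x = ∑ᶠ x, u x * ψ x := by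
  have h := finsum_lap_mul (hO.subset (lap_support hu.off)) (hO.subset (lap_support hv.off))
  have h1 : ∑ᶠ x, φ x * v x = - ∑ᶠ x, lap u x * v x := by
    rw [← finsum_neg_distrib]
    apply finsum_congr
    intro x
    by_cases hx : x ∈ O
    · rw [← hu.eq x hx]; ring
    · rw [hv.off x hx]; ring
  have h2 : ∑ᶠ x, u x * ψ x = - ∑ᶠ x, u x * lap v x := by
    rw [← finsum_neg_distrib]
    apply finsum_congr
    intro x
    by_cases hx : x ∈ O
    · rw [← hv.eq x hx]; ring
    · rw [hu.off x hx]; ring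
  rw [h1, h2, h]

/-- Restatement with sums over `O`. -/
theorem green_symm' {O : Set Pt} (hO : O.Finite) {φ ψ u v : Pt → ℝ} (hu : IsGreen O φ u)
    (hv : IsGreen O ψ v) : ∑ x ∈ hO.toFinset, φ x * v x = ∑ x ∈ hO.toFinset, u x * ψ x := by
  have h := green_symm hO hu hv
  rw [finsum_eq_sum_of_support_subset (s := hO.toFinset), finsum_eq_sum_of_support_subset
    (s := hO.toFinset)] at h
  · exact h
  · intro x hx
    simp only [Set.Finite.coe_toFinset]
    by_contra hxO
    exact hx (by simp [hu.off x hxO])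
  · intro x hx
    simp only [Set.Finite.coe_toFinset]
    by_contra hxO
    exact hx (by simp [hv.off x hxO])

/-! ## exit time bounds -/

theorem lap_sq1 (p x : Pt) : lap (fun y => ((y.1 : ℝ) - p.1) ^ 2) x = 2 := by
  unfold lap; push_cast; ring

theorem lap_sq2 (p x : Pt) : lap (fun y => ((y.2 : ℝ) - p.2) ^ 2) x = 2 := by
  unfold lap; push_cast; ring

/-- Euclidean square distance. -/
noncomputable def sqd (p y : Pt) : ℝ := ((y.1 : ℝ) - p.1) ^ 2 + ((y.2 : ℝ) - p.2) ^ 2

theorem lap_sqd (p x : Pt) : lap (sqd p) x = 4 := by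
  unfold sqd lap; push_cast; ring

theorem sqd_self (p : Pt) : sqd p p = 0 := by simp [sqd]

theorem sqd_nonneg (p y : Pt) : 0 ≤ sqd p y := by unfold sqd; positivity

theorem abs_le_dn1 (p y : Pt) : |(y.1 : ℝ) - p.1| ≤ dn p y := by
  have h : |y.1 - p.1| ≤ (dn p y : ℤ) := by rw [dn_eq, Int.abs_eq_natAbs]; omega
  have h2 : ((|y.1 - p.1| : ℤ) : ℝ) ≤ ((dn p y : ℤ) : ℝ) := by exact_mod_cast h
  push_cast at h2
  exact h2

theorem abs_le_dn2 (p y : Pt) : |(y.2 : ℝ) - p.2| ≤ dn p y := by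
  have h : |y.2 - p.2| ≤ (dn p y : ℤ) := by rw [dn_eq, Int.abs_eq_natAbs]; omega
  have h2 : ((|y.2 - p.2| : ℤ) : ℝ) ≤ ((dn p y : ℤ) : ℝ) := by exact_mod_cast h
  push_cast at h2
  exact h2

theorem sqd_le (p y : Pt) : sqd p y ≤ 2 * (dn p y : ℝ) ^ 2 := by
  unfold sqd
  have h1 := abs_le_dn1 p y
  have h2 := abs_le_dn2 p y
  have h3 : ((y.1 : ℝ) - p.1) ^ 2 ≤ (dn p y : ℝ) ^ 2 := by
    rw [← sq_abs]; gcongr
  have h4 : ((y.2 : ℝ) - p.2) ^ 2 ≤ (dn p y : ℝ) ^ 2 := by
    rw [← sq_abs]; gcongr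
  linarith

theorem le_sqd (p y : Pt) : (dn p y : ℝ) ^ 2 ≤ sqd p y := by
  unfold sqd
  have h : (dn p y : ℤ) = |y.1 - p.1| ∨ (dn p y : ℤ) = |y.2 - p.2| := by
    rw [dn_eq, Int.abs_eq_natAbs, Int.abs_eq_natAbs]; omega
  rcases h with h | h
  · have h' : (dn p y : ℝ) = |(y.1 : ℝ) - p.1| := by
      have := congrArg (fun z : ℤ => (z : ℝ)) h
      push_cast at this
      exact this
    rw [h', sq_abs]
    nlinarith [sq_nonneg ((y.2 : ℝ) - p.2)]
  · have h' : (dn p y : ℝ) = |(y.2 : ℝ) - p.2| := by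
      have := congrArg (fun z : ℤ => (z : ℝ)) h
      push_cast at this
      exact this
    rw [h', sq_abs]
    nlinarith [sq_nonneg ((y.1 : ℝ) - p.1)]

open Classical in
/-- Upper bound for the exit time from a subset of a box. -/
theorem exit_le {O : Set Pt} {p : Pt} {L : ℕ} (hOL : ∀ x ∈ O, dn p x ≤ L) {φ u : Pt → ℝ}
    (hu : IsGreen O φ u) (hφ : ∀ x ∈ O, φ x ≤ 1) : ∀ x, u x ≤ ((L : ℝ) + 1) ^ 2 := by
  have hO : O.Finite := by
    apply (box p L).finite_toSet.subset
    intro x hx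
    exact mem_box.2 (hOL x hx)
  intro x
  have h := comparison hO (u := u) (v := fun y => ((L : ℝ) + 1) ^ 2 +
      (-1 / 2) * ((if y ∈ O ∨ dn p y ≤ L + 1 then ((y.1 : ℝ) - p.1) ^ 2 else 0))) ?_ ?_ x
  · refine h.trans ?_
    have : (0 : ℝ) ≤ (if x ∈ O ∨ dn p x ≤ L + 1 then ((x.1 : ℝ) - p.1) ^ 2 else 0) := by
      split_ifs <;> positivity
    linarith
  · intro y hy
    have hyL := hOL y hy
    rw [lap_add, lap_const, lap_smul]
    have h1 : lap (fun y => if y ∈ O ∨ dn p y ≤ L + 1 then ((y.1 : ℝ) - p.1) ^ 2 else 0) y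
        = lap (fun y => ((y.1 : ℝ) - p.1) ^ 2) y := by
      unfold lap
      have e1 : dn p (y.1 + 1, y.2) ≤ L + 1 := by rw [dn_eq] at *; simp only at *; omega
      have e2 : dn p (y.1 - 1, y.2) ≤ L + 1 := by rw [dn_eq] at *; simp only at *; omega
      have e3 : dn p (y.1, y.2 + 1) ≤ L + 1 := by rw [dn_eq] at *; simp only at *; omega
      have e4 : dn p (y.1, y.2 - 1) ≤ L + 1 := by rw [dn_eq] at *; simp only at *; omega
      have e5 : dn p y ≤ L + 1 := by omega
      simp only [e1, e2, e3, e4, e5, or_true, if_true]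
    rw [h1, lap_sq1]
    linarith [hu.eq y hy, hφ y hy]
  · intro y hy
    rw [hu.off y hy]
    by_cases hyL : dn p y ≤ L + 1
    · simp only [hyL, or_true, if_true]
      have h1 := abs_le_dn1 p y
      have h2 : (dn p y : ℝ) ≤ L + 1 := by exact_mod_cast hyL
      have h3 : ((y.1 : ℝ) - p.1) ^ 2 ≤ ((L : ℝ) + 1) ^ 2 := by
        rw [← sq_abs]
        have := h1.trans h2
        gcongr
      nlinarith [sq_nonneg ((L : ℝ) + 1)]
    · simp only [hy, hyL, or_self, if_false]
      nlinarith [sq_nonneg ((L : ℝ) + 1)]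

/-- Lower bound for the exit time. -/
theorem le_exit {O : Set Pt} (hO : O.Finite) {u φ : Pt → ℝ} (hu : IsGreen O φ u)
    (hφ : ∀ x ∈ O, 1 ≤ φ x) (x : Pt) : (dF O x : ℝ) ^ 2 / 4 ≤ u x := by
  have h := sub_le_green hO hu (w := fun y => (dF O x : ℝ) ^ 2 / 4 + (-1 / 4) * sqd x y) ?_ ?_ x
  · simp only [sqd_self] at h
    linarith
  · intro y hy
    rw [lap_add, lap_const, lap_smul, lap_sqd]
    linarith [hφ y hy]
  · intro y hy
    have h1 : dF O x ≤ dn x y := dF_le hy
    have h2 : ((dF O x : ℕ) : ℝ) ≤ dn x y := by exact_mod_cast h1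
    have h3 := le_sqd x y
    have h4 : (dF O x : ℝ) ^ 2 ≤ (dn x y : ℝ) ^ 2 := by gcongr
    linarith

end Vale.Agent.P155.G45
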