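import Vale.Agent.P155.G45.Whitney

/-!
# P155, block G4: `W_final`
-/

namespace Vale.Agent.P155.G45

open Finset Vale.Agent.P155.G

/-- the `j`-th layer function -/
noncomputable def layr (O : Set Pt) (s J j : ℕ) : Pt → ℝ :=
  if j < J then fun z => cutf O (s * 2 ^ j) z + -(cutf O (s * 2 ^ (j + 1)) z)
  else cutf O (s * 2 ^ j)

theorem layr_sum (O : Set Pt) (s J : ℕ) (y : Pt) :
    ∑ j ∈ range (J + 1), layr O s J j y = cutf O s y := by
  rw [Finset.sum_range_succ]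
  have h1 : ∑ j ∈ range J, layr O s J j y =
      ∑ j ∈ range J, (cutf O (s * 2 ^ j) y - cutf O (s * 2 ^ (j + 1)) y) := by
    apply Finset.sum_congr rfl
    intro j hj
    rw [Finset.mem_range] at hj
    simp only [layr, hj, if_true]
    ring
  rw [h1, Finset.sum_range_sub' (fun j => cutf O (s * 2 ^ j) y)]
  simp [layr]

theorem layr_diff (O : Set Pt) {s : ℕ} (hs : 8 ≤ s) (J j : ℕ) {t : ℕ} (ht : 1 ≤ t)
    (hts : t ≤ s * 2 ^ j) (a b : ℕ) (hab : a + b ≤ 4) (y : Pt) :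
    |(Dx^[a] (Dy^[b] (layr O s J j))) y| ≤ 2 * 32 ^ 4 * ((t : ℝ)⁻¹) ^ (a + b) := by
  have ht0 : (0 : ℝ) < t := by exact_mod_cast ht
  have key : ∀ i, j ≤ i → |(Dx^[a] (Dy^[b] (cutf O (s * 2 ^ i)))) y| ≤
      32 ^ 4 * ((t : ℝ)⁻¹) ^ (a + b) := by
    intro i hi
    have h2 : s * 2 ^ j ≤ s * 2 ^ i := Nat.mul_le_mul_left _ (Nat.pow_le_pow_right (by norm_num) hi)
    have h1 : 1 ≤ 2 ^ i := Nat.one_le_two_pow
    have h8 : 8 ≤ s * 2 ^ i := by nlinarith
    refine (cutf_diff O h8 a b hab y).trans ?_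
    apply mul_le_mul_of_nonneg_left _ (by norm_num)
    apply pow_le_pow_left₀ (by positivity)
    apply inv_anti₀ ht0
    exact_mod_cast hts.trans h2
  unfold layr
  split_ifs with hj
  · rw [D_add a b (cutf O (s * 2 ^ j)) (fun z => -(cutf O (s * 2 ^ (j + 1)) z)), D_neg]
    have h1 := key j le_rfl
    have h2 := key (j + 1) (by omega)
    calc _ ≤ |(Dx^[a] (Dy^[b] (cutf O (s * 2 ^ j)))) y| +
          |-(Dx^[a] (Dy^[b] (cutf O (s * 2 ^ (j + 1))))) y| := abs_add_le _ _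
      _ ≤ 32 ^ 4 * ((t : ℝ)⁻¹) ^ (a + b) + 32 ^ 4 * ((t : ℝ)⁻¹) ^ (a + b) := by
          rw [abs_neg]
          exact add_le_add h1 h2
      _ = _ := by ring
  · refine (key j le_rfl).trans ?_
    have : 0 ≤ ((t : ℝ)⁻¹) ^ (a + b) := by positivity
    linarith

theorem layr_ne {O : Set Pt} (hO : ∃ q, q ∉ O) {s : ℕ} (hs : 8 ≤ s) {J j : ℕ} {z : Pt}
    (h : layr O s J j z ≠ 0) : s * 2 ^ j < dF O z ∧ (j < J → dF O z < 4 * (s * 2 ^ j)) := by
  have h1 : 1 ≤ 2 ^ j := Nat.one_le_two_pow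
  have h8 : 8 ≤ s * 2 ^ j := by nlinarith
  have e : s * 2 ^ (j + 1) = 2 * (s * 2 ^ j) := by rw [pow_succ]; ring
  constructor
  · by_contra hcon
    apply h
    have z1 : cutf O (s * 2 ^ j) z = 0 := cutf_zero hO h8 (by omega)
    have z2 : cutf O (s * 2 ^ (j + 1)) z = 0 := cutf_zero hO (by omega) (by omega)
    unfold layr
    split_ifs with hj
    · change cutf O (s * 2 ^ j) z + -(cutf O (s * 2 ^ (j + 1)) z) = 0
      rw [z1, z2]; simp
    · exact z1
  · intro hj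
    by_contra hcon
    apply h
    have z1 : cutf O (s * 2 ^ j) z = 1 := cutf_one hO h8 (by omega)
    have z2 : cutf O (s * 2 ^ (j + 1)) z = 1 := cutf_one hO (by omega) (by omega)
    unfold layr
    rw [if_pos hj]
    change cutf O (s * 2 ^ j) z + -(cutf O (s * 2 ^ (j + 1)) z) = 0
    rw [z1, z2]; simp


/-! ## geometry of the active cells -/

theorem act_dF {O : Set Pt} (hO : ∃ q, q ∉ O) {s J j n t R : ℕ} (hs : 8 ≤ s) (ht : 1 ≤ t)
    (htn : 16 * t ≤ n) (h8 : 8 * n ≤ s * 2 ^ j) {k : Pt}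
    (hk : k ∈ active O t R (layr O s J j)) :
    7 * n ≤ dF O (corner t k) ∧ (j < J → dF O (corner t k) < 5 * (s * 2 ^ j)) := by
  obtain ⟨z, hzO, hz, hd⟩ := active_spec ht hk
  obtain ⟨h1, h2⟩ := layr_ne hO hs hz
  have h3 := dF_lip hO z (corner t k)
  have h4 := dF_lip hO (corner t k) z
  rw [dn_comm] at h3
  refine ⟨by omega, fun hj => ?_⟩
  have h7 := h2 hj
  omega

theorem cell_dn {t : ℕ} (ht : 1 ≤ t) {z k : Pt} (hz : cidx t z = k) : dn (corner t k) z ≤ t := by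
  have hb := cidx_bound t z
  rw [hz] at hb
  have h2 := cs_le ht
  have h3 := cs_pos t
  rw [dn_eq]; omega

/-- the sum over the active cells of one scale -/
theorem scale_sum {A : ℝ} (hA : 1 ≤ A)
    (hH : ∀ (x : Pt) (r : ℕ) (c : ℝ) (h : Pt → ℝ), 0 ≤ c → (∀ y, dn x y ≤ 2 * r → 0 ≤ h y) →
      (∀ y, dn x y < 2 * r → - lap h y = c) → ∀ y z, dn x y ≤ r → dn x z ≤ r → h y ≤ A * h z)
    {O : Set Pt} (hO : ∃ q, q ∉ O) {c : ℝ} (hc : 0 ≤ c) {ub : Pt → ℝ}
    (hub : IsGreen O (fun _ => c) ub) (hub0 : ∀ y, 0 ≤ ub y)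
    {s J j n t R : ℕ} (hs : 8 ≤ s) (ht : 1 ≤ t) (htn : 16 * t ≤ n) (h8 : 8 * n ≤ s * 2 ^ j)
    {S : Finset Pt} (hS : ∀ z ∈ O, (j < J → dF O z ≤ 6 * (s * 2 ^ j)) → z ∈ S) :
    (∑ k ∈ active O t R (layr O s J j), ub (corner t k)) * (t : ℝ) ^ 2 ≤
      9 * A * ∑ z ∈ S, ub z := by
  apply sum_cells hA hub0
  intro k hk z hz
  obtain ⟨h1, h2⟩ := act_dF hO hs ht htn h8 hk
  have hd := cell_dn ht hz
  have hzO : z ∈ O := mem_of_lt_dF (x := corner t k) (by omega)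
  refine ⟨hS z hzO (fun hj => ?_), ?_⟩
  · have h3 := dF_lip hO z (corner t k)
    rw [dn_comm] at h3
    have h4 := h2 hj
    omega
  · apply hH (corner t k) (3 * n) c ub hc (fun y _ => hub0 y)
      (fun y hy => hub.eq y (mem_of_lt_dF (x := corner t k) (by omega)))
    · rw [dn_self]; omega
    · omega

/-! ## the scales -/

theorem exists_scales {s M : ℕ} (hs : 64 ≤ s) (hsM : s ≤ M) : ∃ J : ℕ,
    M < 2 * (s / 8 * 2 ^ J) ∧ (∀ j < J, 2 * (s / 8 * 2 ^ j) ≤ M) ∧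
    (∀ j ≤ J, s / 8 * 2 ^ j ≤ M) := by
  have hn08 : 8 ≤ s / 8 := by omega
  have hex : ∃ j, M < 2 * (s / 8 * 2 ^ j) := by
    refine ⟨M, ?_⟩
    have h1 : M < 2 ^ M := Nat.lt_two_pow_self
    have h2 : 2 ^ M ≤ s / 8 * 2 ^ M := Nat.le_mul_of_pos_left _ (by omega)
    omega
  have h1 := Nat.find_spec hex
  have h2 : ∀ j < Nat.find hex, 2 * (s / 8 * 2 ^ j) ≤ M :=
    fun j hj => not_lt.1 (Nat.find_min hex hj)
  refine ⟨Nat.find hex, h1, h2, ?_⟩
  have h3 : s / 8 * 2 ^ (Nat.find hex) ≤ M := by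
    rcases Nat.eq_zero_or_pos (Nat.find hex) with h | h
    · rw [h]; simp; omega
    · obtain ⟨J', hJ'⟩ : ∃ J', Nat.find hex = J' + 1 := ⟨Nat.find hex - 1, by omega⟩
      have h4 := h2 J' (by omega)
      rw [hJ', pow_succ]
      have : s / 8 * (2 ^ J' * 2) = 2 * (s / 8 * 2 ^ J') := by ring
      omega
  intro j hj
  refine le_trans ?_ h3
  exact Nat.mul_le_mul_left _ (Nat.pow_le_pow_right (by norm_num) hj)

theorem log_scales {n0 J R : ℕ} (hn0 : 1 ≤ n0) (h : n0 * 2 ^ J ≤ R) (hR : 1 ≤ R) :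
    (J : ℝ) ≤ 2 * Real.log R := by
  have h2 : (2 : ℝ) ^ J ≤ R := by
    have h3 : 2 ^ J ≤ n0 * 2 ^ J := Nat.le_mul_of_pos_left _ (by omega)
    have h4 : 2 ^ J ≤ R := by omega
    exact_mod_cast h4
  have h5 : (J : ℝ) * Real.log 2 ≤ Real.log R := by
    rw [← Real.log_pow]
    exact Real.log_le_log (by positivity) h2
  have h6 : (1 / 2 : ℝ) ≤ Real.log 2 := by
    have := Real.log_two_gt_d9
    linarith
  have hR1 : (1 : ℝ) ≤ R := by exact_mod_cast hR
  have h7 : 0 ≤ Real.log R := Real.log_nonneg hR1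
  have : (0 : ℝ) ≤ J := by positivity
  nlinarith

/-! ## packaging -/

/-- From families indexed by scales and cells to families indexed by `ℕ`. -/
theorem package {O : Set Pt} {C R0 : ℝ} {s M R : ℕ} {t : ℕ → ℕ} {f : Pt → ℝ} (J : ℕ)
    (nn : ℕ → ℕ) (hinj : ∀ i j, nn i = nn j → i = j) (act : ℕ → Finset Pt)
    (x : ℕ → Pt → Pt) (H : ℕ → Pt → ℝ) (ψ : ℕ → Pt → Pt → ℝ) (hC : 0 ≤ C)
    (h1 : ∀ j ≤ J, ∀ k ∈ act j, s ≤ 16 * nn j ∧ nn j ≤ M ∧ 4 * nn j ≤ dF O (x j k) ∧ 0 ≤ H j k ∧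
      IsBump (x j k) (t (nn j)) (H j k) (ψ j k))
    (h2 : ∀ y, f y = ∑ j ∈ range (J + 1), ∑ k ∈ act j, ψ j k y)
    (h3 : ∀ j ≤ J, (∑ k ∈ act j, H j k) * (t (nn j) : ℝ) ^ 2 ≤
      C * (if 2 * nn j ≤ M then (nn j : ℝ) ^ 2 else (R : ℝ) ^ 2))
    (h4 : (J : ℝ) + 1 ≤ R0) :
    ∃ (I : Finset ℕ) (x : ℕ → Pt) (n : ℕ → ℕ) (H : ℕ → ℝ) (ψ : ℕ → Pt → ℝ),
    (∀ q ∈ I, s ≤ 16 * n q ∧ n q ≤ M ∧ 4 * n q ≤ dF O (x q) ∧ 0 ≤ H q ∧
      IsBump (x q) (t (n q)) (H q) (ψ q)) ∧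
    (∀ y, f y = ∑ q ∈ I, ψ q y) ∧
    (∀ m : ℕ, (∑ q ∈ I.filter (fun q => n q = m), H q) * (t m : ℝ) ^ 2 ≤
      C * (if 2 * m ≤ M then (m : ℝ) ^ 2 else (R : ℝ) ^ 2)) ∧
    ((I.image n).card : ℝ) ≤ R0 := by
  classical
  set S' : Finset (Σ _ : ℕ, Pt) := (range (J + 1)).sigma act with hS'
  set g : ℕ → (Σ _ : ℕ, Pt) := fun q =>
    (Encodable.decode (α := (Σ _ : ℕ, Pt)) q).getD ⟨0, (0, 0)⟩ with hg
  have hge : ∀ i : (Σ _ : ℕ, Pt), g (Encodable.encode i) = i := by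
    intro i
    simp only [hg, Encodable.encodek, Option.getD_some]
  refine ⟨S'.map ⟨Encodable.encode, Encodable.encode_injective⟩,
    fun q => x (g q).1 (g q).2, fun q => nn (g q).1, fun q => H (g q).1 (g q).2,
    fun q => ψ (g q).1 (g q).2, ?_, ?_, ?_, ?_⟩
  · intro q hq
    rw [Finset.mem_map] at hq
    obtain ⟨⟨j, k⟩, hjk, rfl⟩ := hq
    simp only [Function.Embedding.coeFn_mk, hge]
    rw [hS', Finset.mem_sigma, Finset.mem_range] at hjk
    exact h1 j (by have := hjk.1; simp only at this; omega) k hjk.2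
  · intro y
    rw [Finset.sum_map]
    simp only [Function.Embedding.coeFn_mk, hge]
    rw [hS', Finset.sum_sigma]
    exact h2 y
  · intro m
    rw [Finset.filter_map, Finset.sum_map]
    simp only [Function.Embedding.coeFn_mk, Function.comp_def, hge]
    by_cases hm : ∃ j ≤ J, nn j = m
    · obtain ⟨j, hj, hjm⟩ := hm
      have hfil : S'.filter (fun q => nn q.1 = m) = ({j} : Finset ℕ).sigma act := by
        ext ⟨i, k⟩
        simp only [hS', Finset.mem_filter, Finset.mem_sigma, Finset.mem_range,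
          Finset.mem_singleton]
        constructor
        · rintro ⟨⟨_, hk⟩, him⟩
          have : i = j := hinj i j (him.trans hjm.symm)
          subst this
          exact ⟨rfl, hk⟩
        · rintro ⟨rfl, hk⟩
          exact ⟨⟨by omega, hk⟩, hjm⟩
      rw [hfil, Finset.sum_sigma, Finset.sum_singleton, ← hjm]
      exact h3 j hj
    · have hfil : S'.filter (fun q => nn q.1 = m) = ∅ := by
        rw [Finset.filter_eq_empty_iff]
        rintro ⟨i, k⟩ hik him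
        rw [hS', Finset.mem_sigma, Finset.mem_range] at hik
        exact hm ⟨i, by have := hik.1; simp only at this; omega, him⟩
      rw [hfil, Finset.sum_empty, zero_mul]
      split_ifs <;> positivity
  · refine le_trans ?_ h4
    have hsub : (S'.map ⟨Encodable.encode, Encodable.encode_injective⟩).image
        (fun q => nn (g q).1) ⊆ (range (J + 1)).image nn := by
      intro m hm
      rw [Finset.mem_image] at hm
      obtain ⟨q, hq, rfl⟩ := hm
      rw [Finset.mem_map] at hq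
      obtain ⟨⟨j, k⟩, hjk, rfl⟩ := hq
      simp only [Function.Embedding.coeFn_mk, hge]
      rw [hS', Finset.mem_sigma] at hjk
      exact Finset.mem_image_of_mem _ hjk.1
    have h5 := (Finset.card_le_card hsub).trans (Finset.card_image_le.trans (by simp : _ ≤ J + 1))
    exact_mod_cast h5

/-- the majorant of the Green potential -/
theorem exists_major {O : Set Pt} (hO : O.Finite) {R : ℕ} (hR : 1 ≤ R)
    (hOR : ∀ x ∈ O, dn (0, 0) x ≤ R) {C0 : ℝ} (hC0 : 0 ≤ C0) :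
    ∃ ub : Pt → ℝ, IsGreen O (fun _ => C0 / (R : ℝ) ^ 2) ub ∧ (∀ y, 0 ≤ ub y) ∧
      (∀ y, ub y ≤ 4 * C0) := by
  have hR0 : (0 : ℝ) < R := by exact_mod_cast hR
  have hR1 : (1 : ℝ) ≤ R := by exact_mod_cast hR
  have hc0 : 0 ≤ C0 / (R : ℝ) ^ 2 := by positivity
  obtain ⟨τ, hτ⟩ := exists_green hO (fun _ => (1 : ℝ))
  have hub : IsGreen O (fun _ => C0 / (R : ℝ) ^ 2) (fun x => C0 / (R : ℝ) ^ 2 * τ x) :=
    { off := fun x hx => by rw [hτ.off x hx, mul_zero]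
      eq := fun x hx => by
        rw [lap_smul]
        have := hτ.eq x hx
        linear_combination (C0 / (R : ℝ) ^ 2) * this }
  refine ⟨_, hub, green_nonneg hO hub (fun _ _ => hc0), ?_⟩
  intro y
  have h1 := exit_le (p := (0, 0)) (L := R) hOR hτ (fun _ _ => le_rfl) y
  have h2 : ((R : ℝ) + 1) ^ 2 ≤ 4 * (R : ℝ) ^ 2 := by nlinarith
  calc C0 / (R : ℝ) ^ 2 * τ y ≤ C0 / (R : ℝ) ^ 2 * (4 * (R : ℝ) ^ 2) :=
        mul_le_mul_of_nonneg_left (h1.trans h2) hc0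
    _ = 4 * C0 := by field_simp

theorem card_le_of_box {O : Set Pt} (hO : O.Finite) {R : ℕ} (hR : 1 ≤ R)
    (hOR : ∀ x ∈ O, dn (0, 0) x ≤ R) : (hO.toFinset.card : ℝ) ≤ 9 * (R : ℝ) ^ 2 := by
  have hR1 : (1 : ℝ) ≤ R := by exact_mod_cast hR
  have h1 : hO.toFinset ⊆ box (0, 0) R := by
    intro x hx
    exact mem_box.2 (hOR x (by simpa using hx))
  have h2 := Finset.card_le_card h1
  rw [card_box] at h2
  have h3 : (hO.toFinset.card : ℝ) ≤ (2 * (R : ℝ) + 1) ^ 2 := by exact_mod_cast h2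
  nlinarith

/-- **Block G4 final statement.** -/
theorem w_final_of {C β : ℝ} (hβ : 0 < β) (hC : 0 ≤ C) (hSD : SupDecay C β) : J.W_final := by
  classical
  obtain ⟨A, hA, hH⟩ := harnack_one hβ hC hSD
  obtain ⟨D, hD, hV⟩ := visits hβ hC hSD
  intro C0
  obtain ⟨H1, hH1⟩ : ∃ H1 : ℝ, H1 = 256 * ((2 * 32 ^ 4) * (32 ^ 4)) * (64 ^ 4 * (A + 21)) :=
    ⟨_, rfl⟩
  have hH1pos : 0 ≤ H1 := by rw [hH1]; positivity
  obtain ⟨Cf, hCf⟩ : ∃ Cf : ℝ, Cf = 32 ^ 4 +
      H1 * (9 * A) * (81 * 256 * D * |C0| + 36 * |C0|) := ⟨_, rfl⟩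
  have hCf1 : 32 ^ 4 ≤ Cf := by
    have : 0 ≤ H1 * (9 * A) * (81 * 256 * D * |C0| + 36 * |C0|) := by positivity
    linarith
  have hCf0 : 0 ≤ Cf := le_trans (by norm_num) hCf1
  refine ⟨Cf, ?_⟩
  intro R O φ u s M t hR hOR hCP hφ hu hs hsM hMR ht
  have hR0 : (0 : ℝ) < R := by exact_mod_cast hR
  have hR1 : (1 : ℝ) ≤ R := by exact_mod_cast hR
  have hOfin : O.Finite := (box (0, 0) R).finite_toSet.subset hOR
  have hOne := exists_notMem hOfin
  have hORd : ∀ x ∈ O, dn (0, 0) x ≤ R := fun x hx => mem_box.1 (by exact_mod_cast hOR hx)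
  have hφ0 : ∀ y, |φ y| ≤ C0 / (R : ℝ) ^ 2 := by
    intro y
    have := hφ.2 0 0 (by omega) y
    simpa using this
  have hc0 : 0 ≤ C0 / (R : ℝ) ^ 2 := (abs_nonneg _).trans (hφ0 (0, 0))
  have hC00 : 0 ≤ C0 := by
    rcases div_nonneg_iff.1 hc0 with h | h
    · exact h.1
    · exact absurd h.2 (not_le.2 (by positivity))
  rw [abs_of_nonneg hC00] at hCf
  obtain ⟨ub, hub, hub0, hub4⟩ := exists_major hOfin hR hORd hC00
  have hcardO := card_le_of_box hOfin hR hORd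
  obtain ⟨J, hJ1, hJ2, hJ3⟩ := exists_scales hs hsM
  obtain ⟨nn, hnn⟩ : ∃ nn : ℕ → ℕ, ∀ j, nn j = s / 8 * 2 ^ j := ⟨fun j => s / 8 * 2 ^ j, fun _ => rfl⟩
  simp only [← hnn] at hJ1 hJ2 hJ3
  have hnn8 : ∀ j, 8 ≤ nn j := by
    intro j
    rw [hnn]
    have h1 : 1 ≤ 2 ^ j := Nat.one_le_two_pow
    have h2 : 8 ≤ s / 8 := by omega
    exact h2.trans (Nat.le_mul_of_pos_right _ h1)
  have hnns : ∀ j, s ≤ 16 * nn j := by
    intro j
    rw [hnn]
    have h1 : 1 ≤ 2 ^ j := Nat.one_le_two_pow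
    have h2 : s / 8 ≤ s / 8 * 2 ^ j := Nat.le_mul_of_pos_right _ h1
    omega
  have hnninj : ∀ i j, nn i = nn j → i = j := by
    intro i j hij
    rw [hnn, hnn] at hij
    have := Nat.eq_of_mul_eq_mul_left (by omega : 0 < s / 8) hij
    exact Nat.pow_right_injective le_rfl this
  have hr1 : ∀ j, 8 * nn j ≤ s * 2 ^ j := by
    intro j
    rw [hnn]
    have : 8 * (s / 8 * 2 ^ j) = (8 * (s / 8)) * 2 ^ j := by ring
    rw [this]
    exact Nat.mul_le_mul_right _ (by omega)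
  have hr2 : ∀ j, s * 2 ^ j ≤ 16 * nn j := by
    intro j
    rw [hnn]
    have : 16 * (s / 8 * 2 ^ j) = (16 * (s / 8)) * 2 ^ j := by ring
    rw [this]
    exact Nat.mul_le_mul_right _ (by omega)
  have htj : ∀ j, 1 ≤ t (nn j) ∧ 16 * t (nn j) ≤ nn j := fun j => ht (nn j) (hnns j)
  refine ⟨cutf O s, cutf_isCut hOne (by omega) hCf1, ?_⟩
  refine package (f := fun y => cutf O s y * u y) J nn hnninj
    (fun j => active O (t (nn j)) R (layr O s J j)) (fun j k => corner (t (nn j)) k)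
    (fun j k => H1 * ub (corner (t (nn j)) k))
    (fun j k y => layr O s J j y * rho (t (nn j)) k y * u y) hCf0 ?_ ?_ ?_ ?_
  · intro j hj k hk
    have h1 := (act_dF hOne (by omega) (htj j).1 (htj j).2 (hr1 j) hk).1
    have h2 := hnn8 j
    refine ⟨hnns j, hJ3 j hj, by omega, mul_nonneg hH1pos (hub0 _), ?_⟩
    have hb := bump_of hA hH hOfin hR hφ hu hub (n := nn j) (t := t (nn j)) (htj j).1 (htj j).2 h2
      ((hJ3 j hj).trans hMR) (x := corner (t (nn j)) k) h1 (lam := layr O s J j)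
      (ρ := rho (t (nn j)) k) (Λ := 2 * 32 ^ 4) (P := 32 ^ 4)
      (layr_diff O (by omega) J j (htj j).1 (by
        have := hr1 j
        have := (htj j).2
        omega))
      (rho_diff (t (nn j)) (htj j).1 k)
      (fun y hy => rho_supp (htj j).1 hy)
    have he : 256 * (2 * 32 ^ 4 * 32 ^ 4) * (64 ^ 4 * (A + 21) * ub (corner (t (nn j)) k)) =
        H1 * ub (corner (t (nn j)) k) := by
      rw [hH1]; ring
    rw [he] at hb
    exact hb
  · intro y
    have h1 : ∀ j ∈ range (J + 1), ∑ k ∈ active O (t (nn j)) R (layr O s J j),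
        layr O s J j y * rho (t (nn j)) k y * u y = layr O s J j y * u y :=
      fun j _ => sum_active hu.off hORd y
    rw [Finset.sum_congr rfl h1, ← Finset.sum_mul, layr_sum]
  · intro j hj
    rw [← Finset.mul_sum, mul_assoc]
    rcases Nat.lt_or_ge j J with hlt | hge'
    · have h2 := hJ2 j hlt
      rw [if_pos h2]
      have h1 := scale_sum hA hH hOne hc0 hub hub0 (J := J) (R := R) (by omega : 8 ≤ s) (htj j).1
        (htj j).2 (hr1 j) (S := hOfin.toFinset.filter (fun z => dF O z ≤ 2 * (3 * (s * 2 ^ j))))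
        (fun z hz h => by
          rw [Finset.mem_filter]
          have := h hlt
          exact ⟨by simpa using hz, by omega⟩)
      have hr : 1 ≤ 3 * (s * 2 ^ j) := by
        have := hr1 j
        have := hnn8 j
        omega
      have h3 := hV O hOfin hCP (3 * (s * 2 ^ j)) hr
        (hOfin.toFinset.filter (fun z => dF O z ≤ 2 * (3 * (s * 2 ^ j))))
        (fun _ => C0 / (R : ℝ) ^ 2) ub
        (fun x hx => (Finset.mem_filter.1 hx).2) hub (fun _ _ => hc0)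
      rw [Finset.sum_const, nsmul_eq_mul] at h3
      have h4 : (hOfin.toFinset.card : ℝ) * (C0 / (R : ℝ) ^ 2) ≤ 9 * C0 := by
        calc (hOfin.toFinset.card : ℝ) * (C0 / (R : ℝ) ^ 2)
            ≤ 9 * (R : ℝ) ^ 2 * (C0 / (R : ℝ) ^ 2) := by gcongr
          _ = 9 * C0 := by field_simp
      have h5 : ((3 * (s * 2 ^ j) : ℕ) : ℝ) ≤ 48 * nn j := by
        have : 3 * (s * 2 ^ j) ≤ 48 * nn j := by
          have := hr2 j
          omega
        exact_mod_cast this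
      have h6 : D * ((3 * (s * 2 ^ j) : ℕ) : ℝ) ^ 2 *
          ((hOfin.toFinset.card : ℝ) * (C0 / (R : ℝ) ^ 2)) ≤ 81 * 256 * D * C0 * (nn j : ℝ) ^ 2 := by
        calc D * ((3 * (s * 2 ^ j) : ℕ) : ℝ) ^ 2 * ((hOfin.toFinset.card : ℝ) * (C0 / (R : ℝ) ^ 2))
            ≤ D * (48 * (nn j : ℝ)) ^ 2 * (9 * C0) := by gcongr
          _ = 81 * 256 * D * C0 * (nn j : ℝ) ^ 2 := by ring
      calc H1 * ((∑ k ∈ active O (t (nn j)) R (layr O s J j),
              ub (corner (t (nn j)) k)) * (t (nn j) : ℝ) ^ 2)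
          ≤ H1 * (9 * A * (81 * 256 * D * C0 * (nn j : ℝ) ^ 2)) := by
            apply mul_le_mul_of_nonneg_left _ hH1pos
            exact h1.trans (mul_le_mul_of_nonneg_left (h3.trans h6) (by positivity))
        _ ≤ Cf * (nn j : ℝ) ^ 2 := by
            rw [hCf]
            have h7 : 0 ≤ (nn j : ℝ) ^ 2 := by positivity
            have h8 : 0 ≤ H1 * (9 * A) * (36 * C0) := by positivity
            nlinarith [mul_nonneg h8 h7]
    · have hjJ : j = J := by omega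
      subst hjJ
      rw [if_neg (by omega)]
      have h1 := scale_sum hA hH hOne hc0 hub hub0 (J := j) (R := R) (by omega : 8 ≤ s) (htj j).1
        (htj j).2 (hr1 j) (S := hOfin.toFinset) (fun z hz _ => by simpa using hz)
      have h2 : ∑ z ∈ hOfin.toFinset, ub z ≤ 36 * C0 * (R : ℝ) ^ 2 := by
        calc ∑ z ∈ hOfin.toFinset, ub z ≤ ∑ _z ∈ hOfin.toFinset, 4 * C0 :=
              Finset.sum_le_sum (fun z _ => hub4 z)
          _ = (hOfin.toFinset.card : ℝ) * (4 * C0) := by rw [Finset.sum_const, nsmul_eq_mul]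
          _ ≤ 9 * (R : ℝ) ^ 2 * (4 * C0) := by gcongr
          _ = 36 * C0 * (R : ℝ) ^ 2 := by ring
      calc H1 * ((∑ k ∈ active O (t (nn j)) R (layr O s j j),
              ub (corner (t (nn j)) k)) * (t (nn j) : ℝ) ^ 2)
          ≤ H1 * (9 * A * (36 * C0 * (R : ℝ) ^ 2)) := by
            apply mul_le_mul_of_nonneg_left _ hH1pos
            exact h1.trans (mul_le_mul_of_nonneg_left h2 (by positivity))
        _ ≤ Cf * (R : ℝ) ^ 2 := by
            rw [hCf]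
            have h3 : 0 ≤ (R : ℝ) ^ 2 := by positivity
            have h4 : 0 ≤ H1 * (9 * A) * (81 * 256 * D * C0) := by positivity
            nlinarith [mul_nonneg h4 h3]
  · have h1 := log_scales (n0 := s / 8) (J := J) (R := R) (by omega)
      (by rw [← hnn]; exact (hJ3 J le_rfl).trans hMR) hR
    have h7 : 0 ≤ Real.log R := Real.log_nonneg hR1
    have h10 : (2 : ℝ) ≤ Cf := le_trans (by norm_num) hCf1
    nlinarith

end Vale.Agent.P155.G45
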