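import Vale.Agent.P155.G45.SkelG
import Vale.Agent.P155.G45.WFinal
import Vale.Agent.P155.G1.Decay

/-!
# P155, block G: unconditional interface statements
-/

namespace Vale.Agent.P155.G45

theorem g_visits : Skel.G_visits := by
  obtain ⟨β, hβ, hSD, _⟩ := G1.decay
  exact g_visits_of hβ (by norm_num) hSD

theorem g_local : Skel.G_local := by
  obtain ⟨β, hβ, hSD, hOut⟩ := G1.decay
  exact g_local_of hβ (by norm_num) hSD hOut

theorem g_decay : Skel.G_decay := by
  obtain ⟨β, hβ, hSD, _⟩ := G1.decay
  exact g_decay_of hβ (by norm_num) hSD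

theorem w_final : J.W_final := by
  obtain ⟨β, hβ, hSD, _⟩ := G1.decay
  exact w_final_of hβ (by norm_num) hSD

end Vale.Agent.P155.G45
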