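import Vale.Agent.P155.G45.Visits

/-!
# P155, block G: Harnack inequality in boxes (from the decay estimate)
-/

namespace Vale.Agent.P155.G45

open Finset

theorem dn_right (x : Pt) : dn x (x.1 + 1, x.2) = 1 := by rw [dn_eq]; simp
theorem dn_left (x : Pt) : dn x (x.1 - 1, x.2) = 1 := by rw [dn_eq]; simp
theorem dn_up (x : Pt) : dn x (x.1, x.2 + 1) = 1 := by rw [dn_eq]; simp
theorem dn_down (x : Pt) : dn x (x.1, x.2 - 1) = 1 := by rw [dn_eq]; simp

theorem lap_congr {u v : Pt → ℝ} {x : Pt} (h : ∀ y, dn x y ≤ 1 → u y = v y) :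
    lap u x = lap v x := by
  unfold lap
  rw [h _ (dn_right x).le, h _ (dn_left x).le, h _ (dn_up x).le, h _ (dn_down x).le,
    h x (by rw [dn_self]; exact Nat.zero_le _)]

theorem Adj.dn_le {a b : Pt} (h : Adj a b) : dn a b ≤ 1 := by
  unfold Adj at h
  rw [Int.abs_eq_natAbs, Int.abs_eq_natAbs] at h
  rw [dn_eq]; omega

theorem adj_right (x : Pt) : Adj x (x.1 + 1, x.2) := by simp [Adj]
theorem adj_left (x : Pt) : Adj x (x.1 - 1, x.2) := by simp [Adj]
theorem adj_up (x : Pt) : Adj x (x.1, x.2 + 1) := by simp [Adj]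
theorem adj_down (x : Pt) : Adj x (x.1, x.2 - 1) := by simp [Adj]

theorem lap_congr_adj {u v : Pt → ℝ} {x : Pt} (h : ∀ y, Adj x y → u y = v y) (h0 : u x = v x) :
    lap u x = lap v x := by
  unfold lap
  rw [h _ (adj_right x), h _ (adj_left x), h _ (adj_up x), h _ (adj_down x), h0]

open Classical in
/-- One Harnack step. -/
theorem harnack_step {C β : ℝ} (hβ : 0 < β) (hC : 0 ≤ C) (hSD : SupDecay C β) :
    ∃ ε : ℝ, 0 < ε ∧ ε ≤ 1 ∧ ∀ (y z : Pt) (L : ℕ) (h : Pt → ℝ), (∀ x, dn y x ≤ L → 0 ≤ h x) →
      (∀ x, dn y x < L → lap h x = 0) → ((dn y z : ℝ) + 1) ≤ ε * ((L : ℝ) + 1) →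
      h y ≤ 4 * h z := by
  obtain ⟨K, hK3, hK⟩ := exists_K hβ hC (ε := 1 / 2) (by norm_num)
  have hK0 : (3 : ℝ) ≤ K := by exact_mod_cast hK3
  refine ⟨3 / K, by positivity, by rw [div_le_one (by linarith)]; exact hK0, ?_⟩
  intro y z L h h0 hl hyz
  have hzL : dn y z ≤ L := by
    have h1 : ((dn y z : ℝ) + 1) ≤ 1 * ((L : ℝ) + 1) := by
      refine hyz.trans ?_
      apply mul_le_mul_of_nonneg_right _ (by positivity)
      rw [div_le_one (by linarith)]; exact hK0
    have : (dn y z : ℝ) ≤ L := by linarith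
    exact_mod_cast this
  set M := h y with hM
  have hM0 : 0 ≤ M := h0 y (by rw [dn_self]; exact Nat.zero_le _)
  rcases hM0.eq_or_lt with hM0' | hMpos
  · rw [← hM0']
    have := h0 z hzL
    linarith
  -- component of `{h ≥ M/2}`
  set G : Set Pt := {x | dn y x ≤ L ∧ M / 2 ≤ h x} with hG
  set A : Set Pt := {x | Relation.ReflTransGen (fun a b => Adj a b ∧ b ∈ G) y x} with hA
  have hyG : y ∈ G := ⟨by rw [dn_self]; exact Nat.zero_le _, by linarith⟩
  have hAG : ∀ x ∈ A, x ∈ G := by
    intro x hx
    rcases Relation.ReflTransGen.cases_tail hx with h1 | ⟨b, _, h2⟩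
    · rw [h1]; exact hyG
    · exact h2.2
  have hyA : y ∈ A := Relation.ReflTransGen.refl
  have hAstep : ∀ a ∈ A, ∀ b, Adj a b → b ∈ G → b ∈ A := by
    intro a ha b hab hb
    exact Relation.ReflTransGen.tail ha ⟨hab, hb⟩
  -- it reaches the boundary
  have hreach : ∃ x ∈ A, L ≤ dn y x := by
    by_contra hcon
    push Not at hcon
    have hAfin : A.Finite := by
      apply (box y L).finite_toSet.subset
      intro x hx
      exact mem_box.2 (hcon x hx).le
    set g : Pt → ℝ := fun x => if x ∈ A ∨ ∃ a ∈ A, Adj a x then h x - M / 2 else 0 with hg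
    have hmax := max_principle hAfin (u := g) ?_ ?_ y
    · have : g y = h y - M / 2 := by simp [hg, hyA]
      rw [this] at hmax
      linarith
    · intro x hx
      have : lap g x = lap (fun w => h w - M / 2) x := by
        apply lap_congr_adj
        · intro w hw
          have : x ∈ A ∧ Adj x w := ⟨hx, hw⟩
          simp only [hg]
          rw [if_pos (Or.inr ⟨x, hx, hw⟩)]
        · simp [hg, hx]
      rw [this, lap_sub, lap_const, hl x (hcon x hx)]
      simp
    · intro x hx
      simp only [hg]
      split_ifs with hc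
      · rcases hc with hc | ⟨a, ha, hax⟩
        · exact absurd hc hx
        · have hxG : x ∉ G := fun hxG => hx (hAstep a ha x hax hxG)
          have hdx : dn y x ≤ L := by
            have h1 := hcon a ha
            have h2 := dn_tri y a x
            have h3 := Adj.dn_le hax
            omega
          have : ¬ (M / 2 ≤ h x) := fun h' => hxG ⟨hdx, h'⟩
          linarith [not_le.1 this]
      · exact le_rfl
  have hall : ∀ x ∈ A, ∀ s ≤ dn y x, ∃ q ∈ A, dn y q = s := by
    intro x hx
    induction hx with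
    | refl =>
      intro s hs
      rw [dn_self] at hs
      exact ⟨y, hyA, by rw [dn_self]; omega⟩
    | tail ha hab ih =>
      rename_i b c
      intro s hs
      rcases Nat.lt_or_ge (dn y b) s with h1 | h1
      · refine ⟨c, hAstep b ha c hab.1 hab.2, ?_⟩
        have h2 := dn_tri y b c
        have h3 := Adj.dn_le hab.1
        omega
      · exact ih s h1
  -- comparison function
  set D : Set Pt := {x | dn y x < L ∧ x ∉ A} with hD
  have hDfin : D.Finite := by
    apply (box y L).finite_toSet.subset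
    intro x hx
    exact mem_box.2 hx.1.le
  obtain ⟨w, hw1, hw2⟩ := exists_dirichlet hDfin (fun _ => 0)
    (fun x => if x ∈ A then (0 : ℝ) else 1)
  have hw0 : ∀ x, 0 ≤ w x := by
    apply comparison hDfin (u := fun _ => 0)
    · intro x hx
      rw [lap_const]; linarith [hw2 x hx]
    · intro x hx
      rw [hw1 x hx]; split_ifs <;> norm_num
  have hwle : ∀ x, w x ≤ 1 := by
    apply comparison hDfin (v := fun _ => 1)
    · intro x hx
      rw [lap_const]; linarith [hw2 x hx]
    · intro x hx
      rw [hw1 x hx]; split_ifs <;> norm_num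
  have hwA : ∀ x ∈ A, w x = 0 := by
    intro x hx
    rw [hw1 x (fun h' => h'.2 hx), if_pos hx]
  have hdec := hSD Aᶜ y L 1 w
    (fun r hr => by
      obtain ⟨x, hxA, hxL⟩ := hreach
      obtain ⟨q, hq, hqr⟩ := hall x hxA r (hr.trans hxL)
      exact ⟨q, fun h' => h' hq, hqr⟩)
    (fun x hx => hwA x (by simpa using hx))
    (fun x hx hxL => by
      have := hw2 x ⟨hxL, hx⟩
      linarith)
    (fun x _ => by rw [abs_of_nonneg (hw0 x)]; exact hwle x) z hzL
  have hwz : w z ≤ 1 / 2 := by
    refine (le_abs_self _).trans (hdec.trans ?_)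
    rw [mul_one]
    refine le_trans ?_ hK
    apply mul_le_mul_of_nonneg_left _ hC
    apply Real.rpow_le_rpow (by positivity) _ hβ.le
    rw [div_le_iff₀ (by positivity)]
    exact hyz
  set h' : Pt → ℝ := fun x => if dn y x ≤ L then h x else 0 with hh'
  have hcomp := comparison hDfin (u := fun x => M / 2 + (-(M / 2)) * w x +
      (if dn y x ≤ L then 0 else -(M / 2))) (v := h') ?_ ?_ z
  · have e1 : h' z = h z := by simp [hh', hzL]
    rw [e1] at hcomp
    simp only [hzL, if_true] at hcomp
    nlinarith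
  · intro x hx
    have hnb : ∀ v, dn x v ≤ 1 → dn y v ≤ L := by
      intro v hv
      have h1 := dn_tri y x v
      have h2 := hx.1
      omega
    have e1 : lap h' x = lap h x := lap_congr (fun v hv => by simp [hh', hnb v hv])
    have e2 : lap (fun x => M / 2 + (-(M / 2)) * w x + (if dn y x ≤ L then 0 else -(M / 2))) x =
        lap (fun x => M / 2 + (-(M / 2)) * w x) x :=
      lap_congr (fun v hv => by simp [hnb v hv])
    rw [e1, e2, hl x hx.1, lap_add, lap_const, lap_smul]
    have := hw2 x hx
    nlinarith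
  · intro x hx
    by_cases hxL : dn y x ≤ L
    · simp only [hh', hxL, if_true, add_zero]
      by_cases hxA : x ∈ A
      · rw [hwA x hxA]
        have := (hAG x hxA).2
        linarith
      · rw [hw1 x hx, if_neg hxA]
        linarith [h0 x hxL]
    · simp only [hh', hxL, if_false]
      have := hw0 x
      nlinarith

/-- A nonnegative function which is harmonic at `z` dominates a quarter of its neighbours. -/
theorem harnack_adj {h : Pt → ℝ} {z : Pt} (hl : lap h z = 0)
    (h0 : ∀ y, dn z y ≤ 1 → 0 ≤ h y) {y : Pt} (hy : Adj z y) : h y ≤ 4 * h z := by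
  have hy' := mem_nbrs.2 hy
  unfold lap at hl
  have h1 := h0 _ (dn_right z).le
  have h2 := h0 _ (dn_left z).le
  have h3 := h0 _ (dn_up z).le
  have h4 := h0 _ (dn_down z).le
  unfold nbrs at hy'
  simp only [Finset.mem_insert, Finset.mem_singleton] at hy'
  rcases hy' with rfl | rfl | rfl | rfl <;> linarith

/-- Intermediate point. -/
theorem exists_mid (x y z : Pt) (r h N : ℕ) (hy : dn x y ≤ r) (hz : dn x z ≤ r)
    (hd : dn y z ≤ (N + 1) * h) : ∃ w, dn x w ≤ r ∧ dn y w ≤ h ∧ dn w z ≤ N * h := by
  have e : (N + 1) * h = N * h + h := by ring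
  rw [e] at hd
  generalize N * h = k at hd ⊢
  rw [dn_eq] at hy hz hd
  refine ⟨(max (y.1 - h) (min (y.1 + h) z.1), max (y.2 - h) (min (y.2 + h) z.2)), ?_, ?_, ?_⟩
  · rw [dn_eq]
    simp only
    clear hd
    omega
  · rw [dn_eq]
    simp only
    clear hy hz
    omega
  · rw [dn_eq]
    simp only
    clear hy hz
    omega

open Classical in
/-- **Harnack inequality in boxes.** -/
theorem harnack {C β : ℝ} (hβ : 0 < β) (hC : 0 ≤ C) (hSD : SupDecay C β) :
    ∃ A : ℝ, 1 ≤ A ∧ ∀ (x : Pt) (r : ℕ) (h : Pt → ℝ), (∀ y, dn x y ≤ 2 * r → 0 ≤ h y) →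
      (∀ y, dn x y < 2 * r → lap h y = 0) → ∀ y z, dn x y ≤ r → dn x z ≤ r →
      h y ≤ A * h z := by
  obtain ⟨ε, hε0, hε1, hstep⟩ := harnack_step hβ hC hSD
  set N : ℕ := ⌈8 / ε⌉₊ with hN
  refine ⟨16 ^ N, one_le_pow₀ (by norm_num), ?_⟩
  intro x r h h0 hl
  rcases Nat.eq_zero_or_pos r with hr | hr
  · subst hr
    intro y z hy hz
    have e1 : x = y := dn_eq_zero.1 (by omega)
    have e2 : x = z := dn_eq_zero.1 (by omega)
    subst e1; subst e2
    have : 0 ≤ h x := h0 x (by rw [dn_self])
    have h16 : (1 : ℝ) ≤ 16 ^ N := one_le_pow₀ (by norm_num)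
    nlinarith
  -- step size
  obtain ⟨s, hs1, hsr, hsN, hs⟩ : ∃ s : ℕ, 1 ≤ s ∧ s ≤ r ∧ 2 * r ≤ N * s ∧
      ∀ y z, dn x y ≤ r → dn x z ≤ r → dn y z ≤ s → h y ≤ 16 * h z := by
    by_cases hcase : 2 ≤ ε * ((r : ℝ) + 1)
    · set q := ⌊ε * ((r : ℝ) + 1)⌋₊ with hq
      have hq2 : 2 ≤ q := Nat.le_floor (by exact_mod_cast hcase)
      have hq_le : (q : ℝ) ≤ ε * ((r : ℝ) + 1) := Nat.floor_le (by positivity)
      have hq_gt : ε * ((r : ℝ) + 1) < q + 1 := Nat.lt_floor_add_one _
      refine ⟨q - 1, by omega, ?_, ?_, ?_⟩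
      · have : (q : ℝ) ≤ (r : ℝ) + 1 := hq_le.trans (by nlinarith [(Nat.cast_nonneg r : (0:ℝ) ≤ r)])
        have : q ≤ r + 1 := by exact_mod_cast this
        omega
      · have h8 : 8 / ε ≤ N := Nat.le_ceil _
        have h1 : ((q - 1 : ℕ) : ℝ) = (q : ℝ) - 1 := by
          rw [Nat.cast_sub (by omega)]; simp
        have h2 : (2 * r : ℝ) ≤ (N : ℝ) * ((q - 1 : ℕ) : ℝ) := by
          rw [h1]
          have hq2' : (2 : ℝ) ≤ q := by exact_mod_cast hq2
          have h3 : ε * ((r : ℝ) + 1) / 4 ≤ (q : ℝ) - 1 := by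
            rcases Nat.lt_or_ge 2 q with hq3 | hq3
            · have : (3 : ℝ) ≤ q := by exact_mod_cast hq3
              linarith
            · have : (q : ℝ) = 2 := by
                have : q = 2 := by omega
                exact_mod_cast this
              rw [this] at hq_gt ⊢
              linarith
          calc (2 * r : ℝ) ≤ 8 / ε * (ε * ((r : ℝ) + 1) / 4) := by
                field_simp
                linarith
            _ ≤ (N : ℝ) * ((q : ℝ) - 1) := by
                apply mul_le_mul h8 h3 (by positivity) (by positivity)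
        exact_mod_cast h2
      · intro y z hy hz hyz
        have h4 := hstep y z r h
          (fun v hv => h0 v (by have := dn_tri x y v; omega))
          (fun v hv => hl v (by have := dn_tri x y v; omega))
          (by
            have : ((dn y z : ℕ) : ℝ) ≤ ((q - 1 : ℕ) : ℝ) := by exact_mod_cast hyz
            rw [Nat.cast_sub (by omega)] at this
            push_cast at this
            linarith)
        have h5 : 0 ≤ h z := h0 z (by omega)
        linarith
    · push Not at hcase
      refine ⟨1, le_rfl, hr, ?_, ?_⟩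
      · have h8 : 8 / ε ≤ N := Nat.le_ceil _
        have h2 : (2 * r : ℝ) ≤ N := by
          refine le_trans ?_ h8
          rw [le_div_iff₀ hε0]
          nlinarith
        have : 2 * r ≤ N := by exact_mod_cast h2
        omega
      · intro y z hy hz hyz
        -- intermediate point
        have hmid : ∃ w, dn x w ≤ r ∧ (w = z ∨ Adj z w) ∧ (y = w ∨ Adj w y) := by
          refine ⟨(y.1, z.2), ?_, ?_, ?_⟩
          · rw [dn_eq] at *; simp only; omega
          · rw [dn_eq] at hyz
            by_cases e : y.1 = z.1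
            · left; ext <;> simp [e]
            · right
              unfold Adj
              simp only [Int.abs_eq_natAbs]
              omega
          · rw [dn_eq] at hyz
            by_cases e : y.2 = z.2
            · left; ext <;> simp [e]
            · right
              unfold Adj
              simp only [Int.abs_eq_natAbs]
              omega
        obtain ⟨w, hw, hzw, hwy⟩ := hmid
        have key : ∀ a b, dn x a ≤ r → (b = a ∨ Adj a b) → h b ≤ 4 * h a := by
          intro a b ha hab
          have ha0 : 0 ≤ h a := h0 a (by omega)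
          rcases hab with rfl | hab
          · linarith
          · exact harnack_adj (hl a (by omega))
              (fun v hv => h0 v (by have := dn_tri x a v; omega)) hab
        have k1 := key z w hz hzw
        have k2 := key w y hw hwy
        linarith
  -- chain
  have chain : ∀ n : ℕ, ∀ y z, dn x y ≤ r → dn x z ≤ r → dn y z ≤ n * s →
      h y ≤ 16 ^ n * h z := by
    intro n
    induction n with
    | zero =>
      intro y z hy hz hyz
      have : y = z := dn_eq_zero.1 (by omega)
      subst this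
      simp
    | succ n ih =>
      intro y z hy hz hyz
      obtain ⟨w, hw, hyw, hwz⟩ := exists_mid x y z r s n hy hz hyz
      have h1 := hs y w hy hw hyw
      have h2 := ih w z hw hz hwz
      calc h y ≤ 16 * h w := h1
        _ ≤ 16 * (16 ^ n * h z) := by linarith
        _ = 16 ^ (n + 1) * h z := by ring
  intro y z hy hz
  apply chain N y z hy hz
  have := dn_tri y x z
  rw [dn_comm y x] at this
  omega

open Classical in
/-- Harnack inequality for the exit time function. -/
theorem harnack_one {C β : ℝ} (hβ : 0 < β) (hC : 0 ≤ C) (hSD : SupDecay C β) :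
    ∃ A : ℝ, 1 ≤ A ∧ ∀ (x : Pt) (r : ℕ) (c : ℝ) (h : Pt → ℝ), 0 ≤ c →
      (∀ y, dn x y ≤ 2 * r → 0 ≤ h y) →
      (∀ y, dn x y < 2 * r → - lap h y = c) → ∀ y z, dn x y ≤ r → dn x z ≤ r →
      h y ≤ A * h z := by
  obtain ⟨A, hA, hh⟩ := harnack hβ hC hSD
  refine ⟨A, hA, ?_⟩
  intro x r c h hc h0 hl y z hy hz
  have := hh x r (fun v => h v + c / 4 * sqd z v)
    (fun v hv => by
      have h1 := h0 v hv
      have h2 := sqd_nonneg z v
      positivity)
    (fun v hv => by
      rw [lap_add, lap_smul, lap_sqd]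
      linarith [hl v hv]) y z hy hz
  simp only [sqd_self, mul_zero, add_zero] at this
  have h3 := sqd_nonneg z y
  have h4 : 0 ≤ c / 4 * sqd z y := by positivity
  linarith

end Vale.Agent.P155.G45
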