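import Vale.Agent.P155.G45.Basic
import Vale.Agent.P155.G.Diff

/-!
# P155, block G4: averaging operators, cut-offs, discrete Leibniz rule
-/

namespace Vale.Agent.P155.G45

open Finset Vale.Agent.P155.G

/-! ## averaging -/

/-- average over a horizontal segment of `m` points to the right -/
noncomputable def AvX (m : ℕ) (f : Pt → ℝ) : Pt → ℝ := fun z =>
  (m : ℝ)⁻¹ * ∑ i ∈ range m, f (z.1 + i, z.2)

/-- average over a vertical segment of `m` points upwards -/
noncomputable def AvY (m : ℕ) (f : Pt → ℝ) : Pt → ℝ := fun z =>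
  (m : ℝ)⁻¹ * ∑ i ∈ range m, f (z.1, z.2 + i)

/-- the smoothing operator -/
noncomputable def Av (m : ℕ) (f : Pt → ℝ) : Pt → ℝ := (AvX m)^[4] ((AvY m)^[4] f)

theorem AvX_bound {m : ℕ} (hm : 1 ≤ m) {f : Pt → ℝ} {M : ℝ} (hf : ∀ z, |f z| ≤ M) (z : Pt) :
    |AvX m f z| ≤ M := by
  have hm0 : (0 : ℝ) < m := by exact_mod_cast hm
  unfold AvX
  rw [abs_mul, abs_of_nonneg (by positivity : (0 : ℝ) ≤ (m : ℝ)⁻¹)]
  have h1 : |∑ i ∈ range m, f (z.1 + i, z.2)| ≤ ∑ _i ∈ range m, M :=
    (Finset.abs_sum_le_sum_abs _ _).trans (Finset.sum_le_sum (fun i _ => hf _))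
  rw [Finset.sum_const, Finset.card_range, nsmul_eq_mul] at h1
  calc (m : ℝ)⁻¹ * |∑ i ∈ range m, f (z.1 + i, z.2)| ≤ (m : ℝ)⁻¹ * (m * M) := by gcongr
    _ = M := by field_simp

theorem AvY_bound {m : ℕ} (hm : 1 ≤ m) {f : Pt → ℝ} {M : ℝ} (hf : ∀ z, |f z| ≤ M) (z : Pt) :
    |AvY m f z| ≤ M := by
  have hm0 : (0 : ℝ) < m := by exact_mod_cast hm
  unfold AvY
  rw [abs_mul, abs_of_nonneg (by positivity : (0 : ℝ) ≤ (m : ℝ)⁻¹)]
  have h1 : |∑ i ∈ range m, f (z.1, z.2 + i)| ≤ ∑ _i ∈ range m, M :=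
    (Finset.abs_sum_le_sum_abs _ _).trans (Finset.sum_le_sum (fun i _ => hf _))
  rw [Finset.sum_const, Finset.card_range, nsmul_eq_mul] at h1
  calc (m : ℝ)⁻¹ * |∑ i ∈ range m, f (z.1, z.2 + i)| ≤ (m : ℝ)⁻¹ * (m * M) := by gcongr
    _ = M := by field_simp

theorem AvX_nonneg {m : ℕ} {f : Pt → ℝ} (hf : ∀ z, 0 ≤ f z) (z : Pt) : 0 ≤ AvX m f z := by
  unfold AvX
  exact mul_nonneg (by positivity) (Finset.sum_nonneg (fun i _ => hf _))

theorem AvY_nonneg {m : ℕ} {f : Pt → ℝ} (hf : ∀ z, 0 ≤ f z) (z : Pt) : 0 ≤ AvY m f z := by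
  unfold AvY
  exact mul_nonneg (by positivity) (Finset.sum_nonneg (fun i _ => hf _))

theorem Av_nonneg {m : ℕ} {f : Pt → ℝ} (hf : ∀ z, 0 ≤ f z) (z : Pt) : 0 ≤ Av m f z := by
  have h1 : ∀ n, ∀ z, 0 ≤ (AvY m)^[n] f z := by
    intro n
    induction n with
    | zero => exact hf
    | succ n ih => rw [Function.iterate_succ_apply']; exact AvY_nonneg ih
  have h2 : ∀ n, ∀ z, 0 ≤ (AvX m)^[n] ((AvY m)^[4] f) z := by
    intro n
    induction n with
    | zero => exact h1 4
    | succ n ih => rw [Function.iterate_succ_apply']; exact AvX_nonneg ih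
  exact h2 4 z

theorem AvX_congr {m : ℕ} {f g : Pt → ℝ} {z : Pt} (h : ∀ i : ℕ, i < m → f (z.1 + i, z.2) =
    g (z.1 + i, z.2)) : AvX m f z = AvX m g z := by
  unfold AvX
  congr 1
  apply Finset.sum_congr rfl
  intro i hi
  exact h i (Finset.mem_range.1 hi)

theorem AvY_congr {m : ℕ} {f g : Pt → ℝ} {z : Pt} (h : ∀ i : ℕ, i < m → f (z.1, z.2 + i) =
    g (z.1, z.2 + i)) : AvY m f z = AvY m g z := by
  unfold AvY
  congr 1
  apply Finset.sum_congr rfl
  intro i hi
  exact h i (Finset.mem_range.1 hi)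

theorem AvX_iter_congr {m : ℕ} (n : ℕ) {f g : Pt → ℝ} {z : Pt}
    (h : ∀ i : ℕ, i ≤ n * (m - 1) → f (z.1 + i, z.2) = g (z.1 + i, z.2)) :
    (AvX m)^[n] f z = (AvX m)^[n] g z := by
  induction n generalizing z with
  | zero => simpa using h 0 (by simp)
  | succ n ih =>
    rw [Function.iterate_succ_apply', Function.iterate_succ_apply']
    apply AvX_congr
    intro i hi
    apply ih
    intro j hj
    have := h (i + j) (by
      have : (n + 1) * (m - 1) = n * (m - 1) + (m - 1) := by ring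
      omega)
    simpa [add_assoc] using this

theorem AvY_iter_congr {m : ℕ} (n : ℕ) {f g : Pt → ℝ} {z : Pt}
    (h : ∀ i : ℕ, i ≤ n * (m - 1) → f (z.1, z.2 + i) = g (z.1, z.2 + i)) :
    (AvY m)^[n] f z = (AvY m)^[n] g z := by
  induction n generalizing z with
  | zero => simpa using h 0 (by simp)
  | succ n ih =>
    rw [Function.iterate_succ_apply', Function.iterate_succ_apply']
    apply AvY_congr
    intro i hi
    apply ih
    intro j hj
    have := h (i + j) (by
      have : (n + 1) * (m - 1) = n * (m - 1) + (m - 1) := by ring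
      omega)
    simpa [add_assoc] using this

theorem Av_congr {m : ℕ} {f g : Pt → ℝ} {z : Pt}
    (h : ∀ i j : ℕ, i ≤ 4 * (m - 1) → j ≤ 4 * (m - 1) → f (z.1 + i, z.2 + j) =
      g (z.1 + i, z.2 + j)) : Av m f z = Av m g z := by
  unfold Av
  apply AvX_iter_congr
  intro i hi
  apply AvY_iter_congr
  intro j hj
  exact h i j hi hj

theorem AvX_const {m : ℕ} (hm : 1 ≤ m) (c : ℝ) : AvX m (fun _ => c) = fun _ => c := by
  have hm0 : (0 : ℝ) < m := by exact_mod_cast hm
  funext z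
  unfold AvX
  rw [Finset.sum_const, Finset.card_range, nsmul_eq_mul]
  field_simp

theorem AvY_const {m : ℕ} (hm : 1 ≤ m) (c : ℝ) : AvY m (fun _ => c) = fun _ => c := by
  have hm0 : (0 : ℝ) < m := by exact_mod_cast hm
  funext z
  unfold AvY
  rw [Finset.sum_const, Finset.card_range, nsmul_eq_mul]
  field_simp

theorem Av_const {m : ℕ} (hm : 1 ≤ m) (c : ℝ) : Av m (fun _ => c) = fun _ => c := by
  unfold Av
  have h1 : ∀ n, (AvY m)^[n] (fun _ => c) = fun _ => c := by
    intro n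
    induction n with
    | zero => rfl
    | succ n ih => rw [Function.iterate_succ_apply', ih, AvY_const hm]
  have h2 : ∀ n, (AvX m)^[n] (fun _ => c) = fun _ => c := by
    intro n
    induction n with
    | zero => rfl
    | succ n ih => rw [Function.iterate_succ_apply', ih, AvX_const hm]
  rw [h1, h2]

theorem Av_eq_const {m : ℕ} (hm : 1 ≤ m) {f : Pt → ℝ} {z : Pt} {c : ℝ}
    (h : ∀ i j : ℕ, i ≤ 4 * (m - 1) → j ≤ 4 * (m - 1) → f (z.1 + i, z.2 + j) = c) :
    Av m f z = c := by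
  rw [Av_congr (g := fun _ => c) h, Av_const hm]

theorem AvX_sum {ι : Type*} (m : ℕ) (K : Finset ι) (F : ι → Pt → ℝ) :
    AvX m (fun z => ∑ k ∈ K, F k z) = fun z => ∑ k ∈ K, AvX m (F k) z := by
  funext z
  unfold AvX
  rw [Finset.sum_comm, Finset.mul_sum]

theorem AvY_sum {ι : Type*} (m : ℕ) (K : Finset ι) (F : ι → Pt → ℝ) :
    AvY m (fun z => ∑ k ∈ K, F k z) = fun z => ∑ k ∈ K, AvY m (F k) z := by
  funext z
  unfold AvY
  rw [Finset.sum_comm, Finset.mul_sum]

theorem Av_sum {ι : Type*} (m : ℕ) (K : Finset ι) (F : ι → Pt → ℝ) :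
    Av m (fun z => ∑ k ∈ K, F k z) = fun z => ∑ k ∈ K, Av m (F k) z := by
  have h1 : ∀ n, (AvY m)^[n] (fun z => ∑ k ∈ K, F k z) = fun z => ∑ k ∈ K, (AvY m)^[n] (F k) z := by
    intro n
    induction n with
    | zero => rfl
    | succ n ih =>
      rw [Function.iterate_succ_apply', ih, AvY_sum]
      funext z
      exact Finset.sum_congr rfl (fun k _ => by rw [Function.iterate_succ_apply'])
  have h2 : ∀ n (G : ι → Pt → ℝ), (AvX m)^[n] (fun z => ∑ k ∈ K, G k z) =
      fun z => ∑ k ∈ K, (AvX m)^[n] (G k) z := by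
    intro n G
    induction n with
    | zero => rfl
    | succ n ih =>
      rw [Function.iterate_succ_apply', ih, AvX_sum]
      funext z
      exact Finset.sum_congr rfl (fun k _ => by rw [Function.iterate_succ_apply'])
  unfold Av
  rw [h1, h2]

theorem Av_le_one {m : ℕ} (hm : 1 ≤ m) {f : Pt → ℝ} (hf : ∀ z, f z ≤ 1) (z : Pt) :
    Av m f z ≤ 1 := by
  have hX : ∀ g : Pt → ℝ, (∀ z, g z ≤ 1) → ∀ z, AvX m g z ≤ 1 := by
    intro g hg z
    have hm0 : (0 : ℝ) < m := by exact_mod_cast hm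
    unfold AvX
    have h1 : ∑ i ∈ range m, g (z.1 + i, z.2) ≤ ∑ _i ∈ range m, (1 : ℝ) :=
      Finset.sum_le_sum (fun i _ => hg _)
    rw [Finset.sum_const, Finset.card_range, nsmul_eq_mul] at h1
    calc (m : ℝ)⁻¹ * ∑ i ∈ range m, g (z.1 + i, z.2) ≤ (m : ℝ)⁻¹ * (m * 1) := by gcongr
      _ = 1 := by field_simp
  have hY : ∀ g : Pt → ℝ, (∀ z, g z ≤ 1) → ∀ z, AvY m g z ≤ 1 := by
    intro g hg z
    have hm0 : (0 : ℝ) < m := by exact_mod_cast hm
    unfold AvY
    have h1 : ∑ i ∈ range m, g (z.1, z.2 + i) ≤ ∑ _i ∈ range m, (1 : ℝ) :=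
      Finset.sum_le_sum (fun i _ => hg _)
    rw [Finset.sum_const, Finset.card_range, nsmul_eq_mul] at h1
    calc (m : ℝ)⁻¹ * ∑ i ∈ range m, g (z.1, z.2 + i) ≤ (m : ℝ)⁻¹ * (m * 1) := by gcongr
      _ = 1 := by field_simp
  have h1 : ∀ n, ∀ z, (AvY m)^[n] f z ≤ 1 := by
    intro n
    induction n with
    | zero => exact hf
    | succ n ih => rw [Function.iterate_succ_apply']; exact hY _ ih
  have h2 : ∀ n, ∀ z, (AvX m)^[n] ((AvY m)^[4] f) z ≤ 1 := by
    intro n
    induction n with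
    | zero => exact h1 4
    | succ n ih => rw [Function.iterate_succ_apply']; exact hX _ ih
  exact h2 4 z

/-! ## differences of averages -/

theorem Dx_AvX_bound {m : ℕ} (hm : 1 ≤ m) {f : Pt → ℝ} {M : ℝ} (hf : ∀ z, |f z| ≤ M) (z : Pt) :
    |Dx (AvX m f) z| ≤ 2 / m * M := by
  have hm0 : (0 : ℝ) < m := by exact_mod_cast hm
  have h1 : Dx (AvX m f) z = (m : ℝ)⁻¹ * (f (z.1 + m, z.2) - f z) := by
    unfold Dx AvX
    simp only
    rw [← mul_sub]
    congr 1
    have e1 : ∑ i ∈ range m, f (z.1 + 1 + i, z.2) = ∑ i ∈ range m, f (z.1 + ((i + 1 : ℕ) : ℤ), z.2) := by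
      apply Finset.sum_congr rfl
      intro i _
      congr 2
      push_cast; ring
    rw [e1]
    have e2 := Finset.sum_range_succ' (fun i : ℕ => f (z.1 + (i : ℤ), z.2)) m
    have e3 := Finset.sum_range_succ (fun i : ℕ => f (z.1 + (i : ℤ), z.2)) m
    have e4 : f (z.1 + ((0 : ℕ) : ℤ), z.2) = f z := by simp
    rw [e4] at e2
    linarith
  rw [h1, abs_mul, abs_of_nonneg (by positivity : (0 : ℝ) ≤ (m : ℝ)⁻¹)]
  have h2 : |f (z.1 + m, z.2) - f z| ≤ 2 * M := by
    have a1 := hf (z.1 + m, z.2)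
    have a2 := hf z
    rw [abs_le] at *
    constructor <;> linarith
  calc (m : ℝ)⁻¹ * |f (z.1 + m, z.2) - f z| ≤ (m : ℝ)⁻¹ * (2 * M) := by gcongr
    _ = 2 / m * M := by field_simp

theorem Dy_AvY_bound {m : ℕ} (hm : 1 ≤ m) {f : Pt → ℝ} {M : ℝ} (hf : ∀ z, |f z| ≤ M) (z : Pt) :
    |Dy (AvY m f) z| ≤ 2 / m * M := by
  have hm0 : (0 : ℝ) < m := by exact_mod_cast hm
  have h1 : Dy (AvY m f) z = (m : ℝ)⁻¹ * (f (z.1, z.2 + m) - f z) := by
    unfold Dy AvY
    simp only
    rw [← mul_sub]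
    congr 1
    have e1 : ∑ i ∈ range m, f (z.1, z.2 + 1 + i) = ∑ i ∈ range m, f (z.1, z.2 + ((i + 1 : ℕ) : ℤ)) := by
      apply Finset.sum_congr rfl
      intro i _
      congr 2
      push_cast; ring
    rw [e1]
    have e2 := Finset.sum_range_succ' (fun i : ℕ => f (z.1, z.2 + (i : ℤ))) m
    have e3 := Finset.sum_range_succ (fun i : ℕ => f (z.1, z.2 + (i : ℤ))) m
    have e4 : f (z.1, z.2 + ((0 : ℕ) : ℤ)) = f z := by simp
    rw [e4] at e2
    linarith
  rw [h1, abs_mul, abs_of_nonneg (by positivity : (0 : ℝ) ≤ (m : ℝ)⁻¹)]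
  have h2 : |f (z.1, z.2 + m) - f z| ≤ 2 * M := by
    have a1 := hf (z.1, z.2 + m)
    have a2 := hf z
    rw [abs_le] at *
    constructor <;> linarith
  calc (m : ℝ)⁻¹ * |f (z.1, z.2 + m) - f z| ≤ (m : ℝ)⁻¹ * (2 * M) := by gcongr
    _ = 2 / m * M := by field_simp

theorem Dx_AvX_comm (m : ℕ) (f : Pt → ℝ) : Dx (AvX m f) = AvX m (Dx f) := by
  funext z
  unfold Dx AvX
  simp only
  rw [← mul_sub, ← Finset.sum_sub_distrib]
  congr 1
  apply Finset.sum_congr rfl
  intro i _
  congr 2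
  ext <;> simp; ring

theorem Dy_AvX_comm (m : ℕ) (f : Pt → ℝ) : Dy (AvX m f) = AvX m (Dy f) := by
  funext z
  unfold Dy AvX
  simp only
  rw [← mul_sub, ← Finset.sum_sub_distrib]

theorem Dy_AvY_comm (m : ℕ) (f : Pt → ℝ) : Dy (AvY m f) = AvY m (Dy f) := by
  funext z
  unfold Dy AvY
  simp only
  rw [← mul_sub, ← Finset.sum_sub_distrib]
  congr 1
  apply Finset.sum_congr rfl
  intro i _
  congr 2
  ext <;> simp; ring

theorem Dx_AvX_iter_comm (m n : ℕ) (f : Pt → ℝ) : Dx ((AvX m)^[n] f) = (AvX m)^[n] (Dx f) := by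
  induction n with
  | zero => rfl
  | succ n ih => rw [Function.iterate_succ_apply', Dx_AvX_comm, ih, ← Function.iterate_succ_apply' (AvX m)]

theorem Dy_AvX_iter_comm (m n : ℕ) (f : Pt → ℝ) : Dy ((AvX m)^[n] f) = (AvX m)^[n] (Dy f) := by
  induction n with
  | zero => rfl
  | succ n ih => rw [Function.iterate_succ_apply', Dy_AvX_comm, ih, ← Function.iterate_succ_apply' (AvX m)]

theorem Dy_AvY_iter_comm (m n : ℕ) (f : Pt → ℝ) : Dy ((AvY m)^[n] f) = (AvY m)^[n] (Dy f) := by
  induction n with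
  | zero => rfl
  | succ n ih => rw [Function.iterate_succ_apply', Dy_AvY_comm, ih, ← Function.iterate_succ_apply' (AvY m)]

theorem Dy_iter_AvX_iter_comm (m n b : ℕ) (f : Pt → ℝ) :
    Dy^[b] ((AvX m)^[n] f) = (AvX m)^[n] (Dy^[b] f) := by
  induction b with
  | zero => rfl
  | succ b ih => rw [Function.iterate_succ_apply', ih, Dy_AvX_iter_comm,
      ← Function.iterate_succ_apply' Dy]

theorem AvX_diff_bound {m : ℕ} (hm : 1 ≤ m) (n : ℕ) : ∀ a : ℕ, a ≤ n → ∀ (f : Pt → ℝ) (M : ℝ),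
    (∀ z, |f z| ≤ M) → ∀ z, |(Dx^[a] ((AvX m)^[n] f)) z| ≤ (2 / m) ^ a * M := by
  induction n with
  | zero =>
    intro a ha f M hf z
    have : a = 0 := by omega
    subst this
    simpa using hf z
  | succ n ih =>
    intro a ha f M hf z
    rw [Function.iterate_succ_apply]
    rcases Nat.lt_or_ge n a with h | h
    · have : a = n + 1 := by omega
      subst this
      rw [Function.iterate_succ_apply, Dx_AvX_iter_comm]
      have := ih n le_rfl (Dx (AvX m f)) (2 / m * M) (Dx_AvX_bound hm hf) z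
      rw [pow_succ]
      linarith
    · exact ih a h (AvX m f) M (AvX_bound hm hf) z

theorem AvY_diff_bound {m : ℕ} (hm : 1 ≤ m) (n : ℕ) : ∀ a : ℕ, a ≤ n → ∀ (f : Pt → ℝ) (M : ℝ),
    (∀ z, |f z| ≤ M) → ∀ z, |(Dy^[a] ((AvY m)^[n] f)) z| ≤ (2 / m) ^ a * M := by
  induction n with
  | zero =>
    intro a ha f M hf z
    have : a = 0 := by omega
    subst this
    simpa using hf z
  | succ n ih =>
    intro a ha f M hf z
    rw [Function.iterate_succ_apply]
    rcases Nat.lt_or_ge n a with h | h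
    · have : a = n + 1 := by omega
      subst this
      rw [Function.iterate_succ_apply, Dy_AvY_iter_comm]
      have := ih n le_rfl (Dy (AvY m f)) (2 / m * M) (Dy_AvY_bound hm hf) z
      rw [pow_succ]
      linarith
    · exact ih a h (AvY m f) M (AvY_bound hm hf) z

/-- Differences of order `≤ 4` of a smoothed function. -/
theorem Av_diff_bound {m : ℕ} (hm : 1 ≤ m) {f : Pt → ℝ} {M : ℝ} (hf : ∀ z, |f z| ≤ M) (a b : ℕ)
    (ha : a ≤ 4) (hb : b ≤ 4) (z : Pt) : |(Dx^[a] (Dy^[b] (Av m f))) z| ≤ (2 / m) ^ (a + b) * M := by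
  unfold Av
  rw [Dy_iter_AvX_iter_comm]
  have h1 := AvY_diff_bound hm 4 b hb f M hf
  have h2 := AvX_diff_bound hm 4 a ha _ _ h1 z
  rw [pow_add, mul_assoc]
  exact h2

/-! ## linearity of differences -/

theorem Dx_add (f g : Pt → ℝ) : Dx (fun z => f z + g z) = fun z => Dx f z + Dx g z := by
  funext z; unfold Dx; ring

theorem Dy_add (f g : Pt → ℝ) : Dy (fun z => f z + g z) = fun z => Dy f z + Dy g z := by
  funext z; unfold Dy; ring

theorem D_add (a b : ℕ) (f g : Pt → ℝ) :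
    Dx^[a] (Dy^[b] (fun z => f z + g z)) = fun z => (Dx^[a] (Dy^[b] f)) z + (Dx^[a] (Dy^[b] g)) z := by
  have h1 : ∀ (b : ℕ) (f g : Pt → ℝ), Dy^[b] (fun z => f z + g z) =
      fun z => (Dy^[b] f) z + (Dy^[b] g) z := by
    intro b
    induction b with
    | zero => intro f g; rfl
    | succ b ih => intro f g; rw [Function.iterate_succ_apply, Dy_add, ih]; rfl
  have h2 : ∀ (a : ℕ) (f g : Pt → ℝ), Dx^[a] (fun z => f z + g z) =
      fun z => (Dx^[a] f) z + (Dx^[a] g) z := by
    intro a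
    induction a with
    | zero => intro f g; rfl
    | succ b ih => intro f g; rw [Function.iterate_succ_apply, Dx_add, ih]; rfl
  rw [h1, h2]

theorem D_neg (a b : ℕ) (f : Pt → ℝ) :
    Dx^[a] (Dy^[b] (fun z => - f z)) = fun z => - (Dx^[a] (Dy^[b] f)) z := by
  have h1 : ∀ (b : ℕ) (f : Pt → ℝ), Dy^[b] (fun z => - f z) = fun z => - (Dy^[b] f) z := by
    intro b
    induction b with
    | zero => intro f; rfl
    | succ b ih =>
      intro f
      rw [Function.iterate_succ_apply]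
      have : Dy (fun z => - f z) = fun z => - Dy f z := by funext z; unfold Dy; ring
      rw [this, ih]; rfl
  have h2 : ∀ (b : ℕ) (f : Pt → ℝ), Dx^[b] (fun z => - f z) = fun z => - (Dx^[b] f) z := by
    intro b
    induction b with
    | zero => intro f; rfl
    | succ b ih =>
      intro f
      rw [Function.iterate_succ_apply]
      have : Dx (fun z => - f z) = fun z => - Dx f z := by funext z; unfold Dx; ring
      rw [this, ih]; rfl
  rw [h1, h2]

/-- Differences vanish where the function vanishes on the stencil. -/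
theorem D_zero_of_stencil (a b : ℕ) : ∀ (f : Pt → ℝ) (z : Pt),
    (∀ i j : ℕ, i ≤ a → j ≤ b → f (z.1 + i, z.2 + j) = 0) → (Dx^[a] (Dy^[b] f)) z = 0 := by
  have h1 : ∀ (b : ℕ) (f : Pt → ℝ) (z : Pt), (∀ j : ℕ, j ≤ b → f (z.1, z.2 + j) = 0) →
      (Dy^[b] f) z = 0 := by
    intro b
    induction b with
    | zero =>
      intro f z h
      simpa using h 0 le_rfl
    | succ b ih =>
      intro f z h
      rw [Function.iterate_succ_apply]
      apply ih
      intro j hj
      unfold Dy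
      have e1 := h j (by omega)
      have e2 := h (j + 1) (by omega)
      have e3 : z.2 + (j : ℤ) + 1 = z.2 + ((j + 1 : ℕ) : ℤ) := by push_cast; ring
      simp only
      rw [e3, e1, e2]; ring
  have h2 : ∀ (a : ℕ) (f : Pt → ℝ) (z : Pt), (∀ j : ℕ, j ≤ a → f (z.1 + j, z.2) = 0) →
      (Dx^[a] f) z = 0 := by
    intro a
    induction a with
    | zero =>
      intro f z h
      simpa using h 0 le_rfl
    | succ b ih =>
      intro f z h
      rw [Function.iterate_succ_apply]
      apply ih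
      intro j hj
      unfold Dx
      have e1 := h j (by omega)
      have e2 := h (j + 1) (by omega)
      have e3 : z.1 + (j : ℤ) + 1 = z.1 + ((j + 1 : ℕ) : ℤ) := by push_cast; ring
      simp only
      rw [e3, e1, e2]; ring
  intro f z h
  apply h2
  intro i hi
  apply h1
  intro j hj
  exact h i j hi hj

/-! ## discrete Leibniz rule -/

/-- shift to the right / upwards -/
def shx (g : Pt → ℝ) : Pt → ℝ := fun z => g (z.1 + 1, z.2)
def shy (g : Pt → ℝ) : Pt → ℝ := fun z => g (z.1, z.2 + 1)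

theorem Dx_mul (f g : Pt → ℝ) : Dx (fun z => f z * g z) =
    fun z => Dx f z * shx g z + f z * Dx g z := by
  funext z; unfold Dx shx; ring

theorem Dy_mul (f g : Pt → ℝ) : Dy (fun z => f z * g z) =
    fun z => Dy f z * shy g z + f z * Dy g z := by
  funext z; unfold Dy shy; ring

theorem D_shx (a b : ℕ) (g : Pt → ℝ) (z : Pt) :
    (Dx^[a] (Dy^[b] (shx g))) z = (Dx^[a] (Dy^[b] g)) (z.1 + 1, z.2) := by
  have h1 : ∀ (b : ℕ) (g : Pt → ℝ), Dy^[b] (shx g) = shx (Dy^[b] g) := by
    intro b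
    induction b with
    | zero => intro g; rfl
    | succ b ih =>
      intro g
      rw [Function.iterate_succ_apply]
      have : Dy (shx g) = shx (Dy g) := by funext z; rfl
      rw [this, ih]; rfl
  have h2 : ∀ (b : ℕ) (g : Pt → ℝ), Dx^[b] (shx g) = shx (Dx^[b] g) := by
    intro b
    induction b with
    | zero => intro g; rfl
    | succ b ih =>
      intro g
      rw [Function.iterate_succ_apply]
      have : Dx (shx g) = shx (Dx g) := by funext z; rfl
      rw [this, ih]; rfl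
  rw [h1, h2]; rfl

theorem D_shy (a b : ℕ) (g : Pt → ℝ) (z : Pt) :
    (Dx^[a] (Dy^[b] (shy g))) z = (Dx^[a] (Dy^[b] g)) (z.1, z.2 + 1) := by
  have h1 : ∀ (b : ℕ) (g : Pt → ℝ), Dy^[b] (shy g) = shy (Dy^[b] g) := by
    intro b
    induction b with
    | zero => intro g; rfl
    | succ b ih =>
      intro g
      rw [Function.iterate_succ_apply]
      have : Dy (shy g) = shy (Dy g) := by funext z; rfl
      rw [this, ih]; rfl
  have h2 : ∀ (b : ℕ) (g : Pt → ℝ), Dx^[b] (shy g) = shy (Dx^[b] g) := by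
    intro b
    induction b with
    | zero => intro g; rfl
    | succ b ih =>
      intro g
      rw [Function.iterate_succ_apply]
      have : Dx (shy g) = shy (Dx g) := by funext z; rfl
      rw [this, ih]; rfl
  rw [h1, h2]; rfl

/-- Pointwise discrete Leibniz estimate. -/
theorem leibniz (n : ℕ) : ∀ (f g : Pt → ℝ) (F G τ : ℝ) (z : Pt),
    (∀ a b : ℕ, a + b ≤ n → |(Dx^[a] (Dy^[b] f)) z| ≤ F * τ ^ (a + b)) →
    (∀ a b i j : ℕ, a + b + i + j ≤ n →
      |(Dx^[a] (Dy^[b] g)) (z.1 + i, z.2 + j)| ≤ G * τ ^ (a + b)) →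
    ∀ a b : ℕ, a + b ≤ n →
      |(Dx^[a] (Dy^[b] (fun z => f z * g z))) z| ≤ 2 ^ (a + b) * (F * G) * τ ^ (a + b) := by
  induction n with
  | zero =>
    intro f g F G τ z hf hg a b hab
    have ha : a = 0 := by omega
    have hb : b = 0 := by omega
    subst ha; subst hb
    have h1 := hf 0 0 le_rfl
    have h2 := hg 0 0 0 0 le_rfl
    simp only [Function.iterate_zero, id, add_zero, pow_zero, mul_one, Nat.cast_zero, one_mul] at *
    rw [abs_mul]
    exact mul_le_mul h1 h2 (abs_nonneg _) ((abs_nonneg _).trans h1)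
  | succ n ih =>
    intro f g F G τ z hf hg a b hab
    rcases Nat.eq_zero_or_pos a with ha | ha
    · rcases Nat.eq_zero_or_pos b with hb | hb
      · subst ha; subst hb
        exact ih f g F G τ z (fun a b h => hf a b (by omega))
          (fun a b i j h => hg a b i j (by omega)) 0 0 (by omega)
      · -- vertical difference
        obtain ⟨b', rfl⟩ : ∃ b', b = b' + 1 := ⟨b - 1, by omega⟩
        have e1 : Dx^[a] (Dy^[b' + 1] (fun z => f z * g z)) =
            fun z => (Dx^[a] (Dy^[b'] (fun z => Dy f z * shy g z))) z +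
              (Dx^[a] (Dy^[b'] (fun z => f z * Dy g z))) z := by
          rw [Function.iterate_succ_apply, Dy_mul, D_add]
        rw [e1]
        have h1 := ih (Dy f) (shy g) (F * τ) G τ z
          (fun a b h => by
            have := hf a (b + 1) (by omega)
            rw [Function.iterate_succ_apply] at this
            calc _ ≤ _ := this
              _ = _ := by ring)
          (fun a b i j h => by
            rw [D_shy]
            have := hg a b i (j + 1) (by omega)
            push_cast at this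
            simpa [add_assoc] using this) a b' (by omega)
        have h2 := ih f (Dy g) F (G * τ) τ z
          (fun a b h => hf a b (by omega))
          (fun a b i j h => by
            have := hg a (b + 1) i j (by omega)
            rw [Function.iterate_succ_apply] at this
            calc _ ≤ _ := this
              _ = _ := by ring) a b' (by omega)
        calc |(Dx^[a] (Dy^[b'] (fun z => Dy f z * shy g z))) z +
              (Dx^[a] (Dy^[b'] (fun z => f z * Dy g z))) z|
            ≤ _ := abs_add_le _ _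
          _ ≤ 2 ^ (a + b') * (F * τ * G) * τ ^ (a + b') + 2 ^ (a + b') * (F * (G * τ)) * τ ^ (a + b') :=
              add_le_add h1 h2
          _ = 2 ^ (a + (b' + 1)) * (F * G) * τ ^ (a + (b' + 1)) := by ring
    · obtain ⟨a', rfl⟩ : ∃ a', a = a' + 1 := ⟨a - 1, by omega⟩
      have e0 : ∀ h : Pt → ℝ, Dx^[a' + 1] (Dy^[b] h) = Dx^[a'] (Dy^[b] (Dx h)) := by
        intro h
        rw [Function.iterate_succ_apply, Dx_Dy_iter]
      have e1 : Dx^[a' + 1] (Dy^[b] (fun z => f z * g z)) =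
          fun z => (Dx^[a'] (Dy^[b] (fun z => Dx f z * shx g z))) z +
            (Dx^[a'] (Dy^[b] (fun z => f z * Dx g z))) z := by
        rw [e0, Dx_mul, D_add]
      rw [e1]
      have h1 := ih (Dx f) (shx g) (F * τ) G τ z
        (fun a b h => by
          have := hf (a + 1) b (by omega)
          rw [Function.iterate_succ_apply, Dx_Dy_iter] at this
          calc _ ≤ _ := this
            _ = _ := by ring)
        (fun a b i j h => by
          rw [D_shx]
          have := hg a b (i + 1) j (by omega)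
          push_cast at this
          simpa [add_assoc] using this) a' b (by omega)
      have h2 := ih f (Dx g) F (G * τ) τ z
        (fun a b h => hf a b (by omega))
        (fun a b i j h => by
          have := hg (a + 1) b i j (by omega)
          rw [Function.iterate_succ_apply, Dx_Dy_iter] at this
          calc _ ≤ _ := this
            _ = _ := by ring) a' b (by omega)
      calc |(Dx^[a'] (Dy^[b] (fun z => Dx f z * shx g z))) z +
            (Dx^[a'] (Dy^[b] (fun z => f z * Dx g z))) z|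
          ≤ _ := abs_add_le _ _
        _ ≤ 2 ^ (a' + b) * (F * τ * G) * τ ^ (a' + b) + 2 ^ (a' + b) * (F * (G * τ)) * τ ^ (a' + b) :=
            add_le_add h1 h2
        _ = 2 ^ (a' + 1 + b) * (F * G) * τ ^ (a' + 1 + b) := by ring

/-! ## cut-off functions -/

open Classical in
/-- cut-off at scale `s`: zero at distance `≤ s`, one at distance `≥ 2s` -/
noncomputable def cutf (O : Set Pt) (s : ℕ) : Pt → ℝ :=
  Av (s / 8) (fun z => if s + 4 * (s / 8) < dF O z then 1 else 0)

theorem cutf_nonneg (O : Set Pt) (s : ℕ) (x : Pt) : 0 ≤ cutf O s x := by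
  unfold cutf
  apply Av_nonneg
  intro z
  split_ifs <;> norm_num

theorem cutf_le_one (O : Set Pt) {s : ℕ} (hs : 8 ≤ s) (x : Pt) : cutf O s x ≤ 1 := by
  unfold cutf
  apply Av_le_one (by omega)
  intro z
  split_ifs <;> norm_num

theorem cutf_zero {O : Set Pt} (hO : ∃ q, q ∉ O) {s : ℕ} (hs : 8 ≤ s) {x : Pt}
    (hx : dF O x ≤ s) : cutf O s x = 0 := by
  unfold cutf
  apply Av_eq_const (by omega)
  intro i j hi hj
  have h1 := dF_lip hO (x.1 + i, x.2 + j) x
  have h2 : dn (x.1 + (i : ℤ), x.2 + (j : ℤ)) x ≤ 4 * (s / 8 - 1) := by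
    rw [dn_eq]; simp only; omega
  rw [if_neg]
  omega

theorem cutf_one {O : Set Pt} (hO : ∃ q, q ∉ O) {s : ℕ} (hs : 8 ≤ s) {x : Pt}
    (hx : 2 * s ≤ dF O x) : cutf O s x = 1 := by
  unfold cutf
  apply Av_eq_const (by omega)
  intro i j hi hj
  have h1 := dF_lip hO x (x.1 + i, x.2 + j)
  have h2 : dn x (x.1 + (i : ℤ), x.2 + (j : ℤ)) ≤ 4 * (s / 8 - 1) := by
    rw [dn_eq]; simp only; omega
  rw [if_pos]
  omega

theorem cutf_diff (O : Set Pt) {s : ℕ} (hs : 8 ≤ s) (a b : ℕ) (hab : a + b ≤ 4) (y : Pt) :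
    |(Dx^[a] (Dy^[b] (cutf O s))) y| ≤ 32 ^ 4 * ((s : ℝ)⁻¹) ^ (a + b) := by
  have hm : 1 ≤ s / 8 := by omega
  have h1 := Av_diff_bound hm (f := fun z => if s + 4 * (s / 8) < dF O z then (1 : ℝ) else 0)
    (M := 1) (fun z => by
      by_cases hc : s + 4 * (s / 8) < dF O z <;> simp [hc]) a b (by omega) (by omega) y
  have h2 : (Dx^[a] (Dy^[b] (cutf O s))) y = (Dx^[a] (Dy^[b] (Av (s / 8)
      (fun z => if s + 4 * (s / 8) < dF O z then (1 : ℝ) else 0)))) y := by
    unfold cutf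
    congr!
  rw [h2]
  refine h1.trans ?_
  rw [mul_one]
  have hs0 : (0 : ℝ) < s := by
    have : 0 < s := by omega
    exact_mod_cast this
  have hm' : (s : ℝ) / 16 ≤ ((s / 8 : ℕ) : ℝ) := by
    have : s ≤ 16 * (s / 8) := by omega
    have h3 : (s : ℝ) ≤ 16 * ((s / 8 : ℕ) : ℝ) := by exact_mod_cast this
    linarith
  have h4 : 2 / ((s / 8 : ℕ) : ℝ) ≤ 32 * (s : ℝ)⁻¹ := by
    calc 2 / ((s / 8 : ℕ) : ℝ) ≤ 2 / ((s : ℝ) / 16) := by
          apply div_le_div_of_nonneg_left (by norm_num) (by positivity) hm'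
      _ = 32 * (s : ℝ)⁻¹ := by field_simp; norm_num
  calc (2 / ((s / 8 : ℕ) : ℝ)) ^ (a + b) ≤ (32 * (s : ℝ)⁻¹) ^ (a + b) := by gcongr
    _ = 32 ^ (a + b) * ((s : ℝ)⁻¹) ^ (a + b) := mul_pow _ _ _
    _ ≤ 32 ^ 4 * ((s : ℝ)⁻¹) ^ (a + b) := by
        apply mul_le_mul_of_nonneg_right _ (by positivity)
        exact pow_le_pow_right₀ (by norm_num) hab

end Vale.Agent.P155.G45
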