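import Vale.Agent.P155.G45.Visits

/-!
# P155, block G5: local mass bounds
-/

namespace Vale.Agent.P155.G45

open Finset

theorem card_shell (p : Pt) (N k : ℕ) : ((box p N).filter (fun x => dn p x = k)).card ≤ 8 * (k + 1) := by
  classical
  set A : Finset Pt := (Finset.Icc (p.2 - k) (p.2 + k)).image (fun y => (p.1 - (k : ℤ), y)) with hA
  set B : Finset Pt := (Finset.Icc (p.2 - k) (p.2 + k)).image (fun y => (p.1 + (k : ℤ), y)) with hB
  set C : Finset Pt := (Finset.Icc (p.1 - k) (p.1 + k)).image (fun y => (y, p.2 - (k : ℤ))) with hC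
  set D : Finset Pt := (Finset.Icc (p.1 - k) (p.1 + k)).image (fun y => (y, p.2 + (k : ℤ))) with hD
  have hsub : (box p N).filter (fun x => dn p x = k) ⊆ (A ∪ B) ∪ (C ∪ D) := by
    intro x hx
    have hk : dn p x = k := (Finset.mem_filter.1 hx).2
    rw [dn_eq] at hk
    have hcase : x.1 = p.1 - k ∨ x.1 = p.1 + k ∨ x.2 = p.2 - k ∨ x.2 = p.2 + k := by omega
    have hb1 : p.1 - k ≤ x.1 ∧ x.1 ≤ p.1 + k := by omega
    have hb2 : p.2 - k ≤ x.2 ∧ x.2 ≤ p.2 + k := by omega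
    simp only [Finset.mem_union, hA, hB, hC, hD, Finset.mem_image, Finset.mem_Icc]
    rcases hcase with h | h | h | h
    · exact Or.inl (Or.inl ⟨x.2, hb2, by ext <;> simp [h]⟩)
    · exact Or.inl (Or.inr ⟨x.2, hb2, by ext <;> simp [h]⟩)
    · exact Or.inr (Or.inl ⟨x.1, hb1, by ext <;> simp [h]⟩)
    · exact Or.inr (Or.inr ⟨x.1, hb1, by ext <;> simp [h]⟩)
  have c1 : (Finset.Icc (p.2 - (k : ℤ)) (p.2 + k)).card = 2 * k + 1 := by
    rw [Int.card_Icc]; omega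
  have c2 : (Finset.Icc (p.1 - (k : ℤ)) (p.1 + k)).card = 2 * k + 1 := by
    rw [Int.card_Icc]; omega
  have hAc : A.card ≤ 2 * k + 1 := Finset.card_image_le.trans c1.le
  have hBc : B.card ≤ 2 * k + 1 := Finset.card_image_le.trans c1.le
  have hCc : C.card ≤ 2 * k + 1 := Finset.card_image_le.trans c2.le
  have hDc : D.card ≤ 2 * k + 1 := Finset.card_image_le.trans c2.le
  have h1 := Finset.card_le_card hsub
  have h2 := Finset.card_union_le (A ∪ B) (C ∪ D)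
  have h3 := Finset.card_union_le A B
  have h4 := Finset.card_union_le C D
  omega

theorem sum_box_rpow {β : ℝ} (hβ1 : β ≤ 1) (p : Pt) (N : ℕ) :
    ∑ x ∈ box p N, ((dn p x : ℝ) + 1) ^ (-β) ≤ 8 * ((N : ℝ) + 1) ^ (2 - β) := by
  classical
  have hmap : ∀ x ∈ box p N, dn p x ∈ Finset.range (N + 1) := by
    intro x hx
    have := mem_box.1 hx
    simp; omega
  rw [← Finset.sum_fiberwise_of_maps_to hmap]
  have h1 : ∀ k ∈ Finset.range (N + 1),
      ∑ x ∈ (box p N).filter (fun x => dn p x = k), ((dn p x : ℝ) + 1) ^ (-β) ≤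
        8 * ((N : ℝ) + 1) ^ (1 - β) := by
    intro k hk
    have hkN : k ≤ N := by simpa using Finset.mem_range_succ_iff.1 hk
    have h2 : ∀ x ∈ (box p N).filter (fun x => dn p x = k),
        ((dn p x : ℝ) + 1) ^ (-β) = ((k : ℝ) + 1) ^ (-β) := by
      intro x hx
      rw [(Finset.mem_filter.1 hx).2]
    rw [Finset.sum_congr rfl h2, Finset.sum_const, nsmul_eq_mul]
    have h3 : (((box p N).filter (fun x => dn p x = k)).card : ℝ) ≤ 8 * ((k : ℝ) + 1) := by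
      exact_mod_cast card_shell p N k
    have hk1 : (0 : ℝ) < (k : ℝ) + 1 := by positivity
    calc (((box p N).filter (fun x => dn p x = k)).card : ℝ) * ((k : ℝ) + 1) ^ (-β)
        ≤ 8 * ((k : ℝ) + 1) * ((k : ℝ) + 1) ^ (-β) := by gcongr
      _ = 8 * ((k : ℝ) + 1) ^ (1 - β) := by
          rw [mul_assoc, sub_eq_add_neg, Real.rpow_add hk1, Real.rpow_one]
      _ ≤ 8 * ((N : ℝ) + 1) ^ (1 - β) := by
          have : (k : ℝ) ≤ N := by exact_mod_cast hkN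
          apply mul_le_mul_of_nonneg_left _ (by norm_num)
          apply Real.rpow_le_rpow hk1.le (by linarith) (by linarith)
  refine (Finset.sum_le_sum h1).trans ?_
  rw [Finset.sum_const, Finset.card_range, nsmul_eq_mul]
  have hN1 : (0 : ℝ) < (N : ℝ) + 1 := by positivity
  have e : (2 - β) = 1 + (1 - β) := by ring
  rw [e, Real.rpow_add hN1, Real.rpow_one]
  push_cast
  apply le_of_eq
  ring

theorem OutDecay.mono {C β γ : ℝ} (hC : 0 ≤ C) (hγ : γ ≤ β) (h : OutDecay C β) : OutDecay C γ := by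
  intro O p ρ M u hO hc hoff hlap hM x hx
  have hM0 : 0 ≤ M := (abs_nonneg _).trans (hM p (by rw [dn_self]; exact Nat.zero_le _))
  refine (h O p ρ M u hO hc hoff hlap hM x hx).trans ?_
  apply mul_le_mul_of_nonneg_right _ hM0
  apply mul_le_mul_of_nonneg_left _ hC
  have hx' : (ρ : ℝ) < dn p x := by exact_mod_cast hx
  apply Real.rpow_le_rpow_of_exponent_ge (by positivity) _ hγ
  rw [div_le_one (by positivity)]
  linarith

open Classical in
/-- Sum of a harmonic measure type function over a macroscopic box. -/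
theorem sum_harm {C β : ℝ} (hβ : 0 < β) (hβ1 : β ≤ 1) (hC1 : 1 ≤ C) (hOut : OutDecay C β)
    {O : Set Pt} (hO : O.Finite) (hCP : CPr O) {R : ℕ} (hR : 1 ≤ R) {c : Pt}
    (hOR : ∀ x ∈ O, dn c x ≤ R) {p : Pt} (hp : p ∉ O) {ρ : ℕ} (hρ : 1 ≤ ρ)
    {w : Pt → ℝ} (hw0 : ∀ x, 0 ≤ w x) (hw1 : ∀ x, w x ≤ 1) (hoff : ∀ x, x ∉ O → w x = 0)
    (hwl : ∀ x ∈ O, ρ < dn p x → lap w x = 0) :
    ∑ x ∈ hO.toFinset, w x ≤ 96 * C * (R : ℝ) ^ 2 * ((ρ : ℝ) / R) ^ β := by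
  have hC0 : 0 ≤ C := by linarith
  have hRR : (1 : ℝ) ≤ R := by exact_mod_cast hR
  have hρR : (1 : ℝ) ≤ ρ := by exact_mod_cast hρ
  -- pointwise bound
  have hpt : ∀ x, w x ≤ C * (((ρ : ℝ) + 1) ^ β * ((dn p x : ℝ) + 1) ^ (-β)) := by
    intro x
    have hdiv : ((ρ : ℝ) + 1) ^ β * ((dn p x : ℝ) + 1) ^ (-β) =
        (((ρ : ℝ) + 1) / ((dn p x : ℝ) + 1)) ^ β := by
      rw [Real.div_rpow (by positivity) (by positivity), Real.rpow_neg (by positivity),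
        div_eq_mul_inv]
    rw [hdiv]
    rcases Nat.lt_or_ge ρ (dn p x) with h | h
    · have := hOut O p ρ 1 w hO (hCP p hp) hoff hwl
        (fun y _ => by rw [abs_of_nonneg (hw0 y)]; exact hw1 y) x h
      rw [abs_of_nonneg (hw0 x), mul_one] at this
      exact this
    · have h' : (dn p x : ℝ) ≤ ρ := by exact_mod_cast h
      have h1 : 1 ≤ (((ρ : ℝ) + 1) / ((dn p x : ℝ) + 1)) ^ β := by
        apply Real.one_le_rpow _ hβ.le
        rw [le_div_iff₀ (by positivity)]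
        linarith
      have := hw1 x
      nlinarith
  -- split
  set S := hO.toFinset with hS
  have hsplit : ∑ x ∈ S, w x = ∑ x ∈ S.filter (fun x => dn p x ≤ R), w x +
      ∑ x ∈ S.filter (fun x => ¬ dn p x ≤ R), w x := by
    rw [Finset.sum_filter_add_sum_filter_not]
  have h1 : ∑ x ∈ S.filter (fun x => dn p x ≤ R), w x ≤
      C * (((ρ : ℝ) + 1) ^ β * (8 * ((R : ℝ) + 1) ^ (2 - β))) := by
    calc ∑ x ∈ S.filter (fun x => dn p x ≤ R), w x
        ≤ ∑ x ∈ S.filter (fun x => dn p x ≤ R),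
            C * (((ρ : ℝ) + 1) ^ β * ((dn p x : ℝ) + 1) ^ (-β)) :=
          Finset.sum_le_sum (fun x _ => hpt x)
      _ ≤ ∑ x ∈ box p R, C * (((ρ : ℝ) + 1) ^ β * ((dn p x : ℝ) + 1) ^ (-β)) := by
          apply Finset.sum_le_sum_of_subset_of_nonneg
          · intro x hx
            exact mem_box.2 (Finset.mem_filter.1 hx).2
          · intro x _ _
            positivity
      _ = C * (((ρ : ℝ) + 1) ^ β * ∑ x ∈ box p R, ((dn p x : ℝ) + 1) ^ (-β)) := by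
          rw [← Finset.mul_sum, ← Finset.mul_sum]
      _ ≤ _ := by
          gcongr
          exact sum_box_rpow hβ1 p R
  have hcard : (S.card : ℝ) ≤ (2 * (R : ℝ) + 1) ^ 2 := by
    have : S ⊆ box c R := by
      intro x hx
      exact mem_box.2 (hOR x (by simpa [hS] using hx))
    have h2 := Finset.card_le_card this
    rw [card_box] at h2
    exact_mod_cast h2
  have h2 : ∑ x ∈ S.filter (fun x => ¬ dn p x ≤ R), w x ≤
      (2 * (R : ℝ) + 1) ^ 2 * (C * (((ρ : ℝ) + 1) ^ β * ((R : ℝ) + 1) ^ (-β))) := by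
    calc ∑ x ∈ S.filter (fun x => ¬ dn p x ≤ R), w x
        ≤ ∑ x ∈ S.filter (fun x => ¬ dn p x ≤ R),
            C * (((ρ : ℝ) + 1) ^ β * ((R : ℝ) + 1) ^ (-β)) := by
          apply Finset.sum_le_sum
          intro x hx
          have hlt := (Finset.mem_filter.1 hx).2
          have hlt' : (R : ℝ) ≤ dn p x := by
            have : R ≤ dn p x := by omega
            exact_mod_cast this
          refine (hpt x).trans ?_
          apply mul_le_mul_of_nonneg_left _ hC0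
          apply mul_le_mul_of_nonneg_left _ (by positivity)
          exact Real.rpow_le_rpow_of_nonpos (by positivity) (by linarith) (by linarith)
      _ = ((S.filter (fun x => ¬ dn p x ≤ R)).card : ℝ) *
            (C * (((ρ : ℝ) + 1) ^ β * ((R : ℝ) + 1) ^ (-β))) := by
          rw [Finset.sum_const, nsmul_eq_mul]
      _ ≤ _ := by
          apply mul_le_mul_of_nonneg_right _ (by positivity)
          refine le_trans ?_ hcard
          exact_mod_cast Finset.card_filter_le _ _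
  have hRpow : ((R : ℝ) + 1) ^ (2 - β) = ((R : ℝ) + 1) ^ 2 * ((R : ℝ) + 1) ^ (-β) := by
    rw [sub_eq_add_neg, Real.rpow_add (by positivity)]
    norm_num
  set q : ℝ := ((ρ : ℝ) + 1) ^ β * ((R : ℝ) + 1) ^ (-β) with hq
  have hqle : q ≤ 2 * ((ρ : ℝ) / R) ^ β := by
    have hdiv : q = (((ρ : ℝ) + 1) / ((R : ℝ) + 1)) ^ β := by
      rw [hq, Real.div_rpow (by positivity) (by positivity), Real.rpow_neg (by positivity),
        div_eq_mul_inv]
    rw [hdiv]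
    calc (((ρ : ℝ) + 1) / ((R : ℝ) + 1)) ^ β ≤ (2 * ((ρ : ℝ) / R)) ^ β := by
          apply Real.rpow_le_rpow (by positivity) _ hβ.le
          rw [← mul_div_assoc, div_le_div_iff₀ (by positivity) (by positivity)]
          nlinarith
      _ = 2 ^ β * ((ρ : ℝ) / R) ^ β := Real.mul_rpow (by norm_num) (by positivity)
      _ ≤ 2 * ((ρ : ℝ) / R) ^ β := by
          apply mul_le_mul_of_nonneg_right _ (by positivity)
          calc (2 : ℝ) ^ β ≤ 2 ^ (1 : ℝ) :=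
                Real.rpow_le_rpow_of_exponent_le (by norm_num) hβ1
            _ = 2 := Real.rpow_one 2
  have hq0 : 0 ≤ q := by positivity
  have hfin : ∑ x ∈ S, w x ≤ 12 * C * ((R : ℝ) + 1) ^ 2 * q := by
    rw [hsplit]
    have e1 : C * (((ρ : ℝ) + 1) ^ β * (8 * ((R : ℝ) + 1) ^ (2 - β))) =
        8 * C * ((R : ℝ) + 1) ^ 2 * q := by
      rw [hRpow, hq]; ring
    rw [e1] at h1
    have e2 : (2 * (R : ℝ) + 1) ^ 2 * (C * q) ≤ 4 * C * ((R : ℝ) + 1) ^ 2 * q := by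
      have : (2 * (R : ℝ) + 1) ^ 2 ≤ 4 * ((R : ℝ) + 1) ^ 2 := by nlinarith
      have h3 : 0 ≤ C * q := mul_nonneg hC0 hq0
      nlinarith
    have h2' := h2.trans e2
    linarith
  refine hfin.trans ?_
  have h5 : ((R : ℝ) + 1) ^ 2 ≤ 4 * (R : ℝ) ^ 2 := by nlinarith
  calc 12 * C * ((R : ℝ) + 1) ^ 2 * q ≤ 12 * C * (4 * (R : ℝ) ^ 2) * (2 * ((ρ : ℝ) / R) ^ β) := by
        gcongr
    _ = 96 * C * (R : ℝ) ^ 2 * ((ρ : ℝ) / R) ^ β := by ring

open Classical in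
/-- Harmonic measure of a box seen from `O`. -/
theorem exists_harm {O : Set Pt} (hO : O.Finite) (p : Pt) (ρ : ℕ) :
    ∃ w : Pt → ℝ, (∀ x, 0 ≤ w x) ∧ (∀ x, w x ≤ 1) ∧ (∀ x, x ∉ O → w x = 0) ∧
      (∀ x ∈ O, ρ < dn p x → lap w x = 0) ∧ (∀ x ∈ O, dn p x ≤ ρ → w x = 1) ∧
      (∀ x ∈ O, lap w x ≤ 0) := by
  set D : Set Pt := {x | x ∈ O ∧ ρ < dn p x} with hD
  have hDf : D.Finite := hO.subset (fun x hx => hx.1)
  obtain ⟨w, hw1, hw2⟩ := exists_dirichlet hDf (fun _ => 0)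
    (fun x => if x ∈ O then (1 : ℝ) else 0)
  have h0 : ∀ x, 0 ≤ w x := by
    apply comparison hDf (u := fun _ => 0)
    · intro x hx
      rw [lap_const]; linarith [hw2 x hx]
    · intro x hx
      rw [hw1 x hx]; split_ifs <;> norm_num
  have h1 : ∀ x, w x ≤ 1 := by
    apply comparison hDf (v := fun _ => 1)
    · intro x hx
      rw [lap_const]; linarith [hw2 x hx]
    · intro x hx
      rw [hw1 x hx]; split_ifs <;> norm_num
  have hone : ∀ x ∈ O, dn p x ≤ ρ → w x = 1 := by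
    intro x hx hd
    rw [hw1 x (fun h => absurd h.2 (not_lt.2 hd))]
    simp [hx]
  refine ⟨w, h0, h1, ?_, ?_, hone, ?_⟩
  · intro x hx
    rw [hw1 x (fun h => hx h.1)]
    simp [hx]
  · intro x hx hd
    have := hw2 x ⟨hx, hd⟩
    linarith
  · intro x hx
    rcases Nat.lt_or_ge ρ (dn p x) with h | h
    · have := hw2 x ⟨hx, h⟩
      linarith
    · unfold lap
      rw [hone x hx h]
      linarith [h1 (x.1 + 1, x.2), h1 (x.1 - 1, x.2), h1 (x.1, x.2 + 1), h1 (x.1, x.2 - 1)]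

/-- **Localized visits lemma** (mass in a box centred off `O`). -/
theorem visits_box {C β : ℝ} (hβ : 0 < β) (hC : 0 ≤ C) (hSD : SupDecay C β)
    (hOut : OutDecay C β) :
    ∃ γ > (0 : ℝ), γ ≤ 1 ∧ γ ≤ β ∧ ∃ D : ℝ, 0 < D ∧ ∀ (O : Set Pt), O.Finite → CPr O →
      ∀ (R : ℕ) (c : Pt), 1 ≤ R → (∀ x ∈ O, dn c x ≤ R) →
      ∀ (φ u : Pt → ℝ) (Φ : ℝ), 0 ≤ Φ → IsGreen O φ u → (∀ x ∈ O, 0 ≤ φ x) →
      (∀ x ∈ O, φ x ≤ Φ / (R : ℝ) ^ 2) →
      ∀ (p : Pt) (r ρ : ℕ), 1 ≤ r → 1 ≤ ρ → p ∉ O → ∀ S : Finset Pt,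
      (∀ x ∈ S, dn p x ≤ ρ) → (∀ x ∈ S, dF O x ≤ 2 * r) →
      ∑ x ∈ S, u x ≤ D * Φ * (r : ℝ) ^ 2 * ((ρ : ℝ) / R) ^ γ := by
  classical
  obtain ⟨D, hD, hv⟩ := visits_local hβ hC hSD
  set γ := min β 1 with hγ
  have hγ0 : 0 < γ := lt_min hβ one_pos
  have hγ1 : γ ≤ 1 := min_le_right _ _
  have hOut' : OutDecay (C + 1) γ := by
    have h1 := hOut.mono hC (min_le_left β 1)
    intro O p ρ M u hO hc hoff hlap hM x hx
    have hM0 : 0 ≤ M := (abs_nonneg _).trans (hM p (by rw [dn_self]; exact Nat.zero_le _))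
    refine (h1 O p ρ M u hO hc hoff hlap hM x hx).trans ?_
    gcongr
    linarith
  refine ⟨γ, hγ0, hγ1, min_le_left _ _, D * (96 * (C + 1)), by positivity, ?_⟩
  intro O hO hCP R c hR hOR φ u Φ hΦ hu hφ0 hφ1 p r ρ hr hρ hp S hSp hSd
  obtain ⟨w, hw0, hw1, hwoff, hwl, hwone, hwsup⟩ := exists_harm hO p ρ
  -- restrict to the points of `O`
  set S' := S.filter (· ∈ O) with hS'
  have hSS : ∑ x ∈ S, u x = ∑ x ∈ S', u x := by
    symm
    apply Finset.sum_subset (Finset.filter_subset _ _)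
    intro x hxS hx
    apply hu.off
    intro hxO
    exact hx (Finset.mem_filter.2 ⟨hxS, hxO⟩)
  rw [hSS]
  have h1 := hv O hO hCP r hr S' φ u w (fun x hx => hSd x (Finset.mem_filter.1 hx).1) hu hφ0 hw0
    (fun x hx _ => hwsup x hx)
    (fun x hx => (hwone x (Finset.mem_filter.1 hx).2 (hSp x (Finset.mem_filter.1 hx).1)).ge)
  refine h1.trans ?_
  have h2 := sum_harm hγ0 hγ1 (by linarith : 1 ≤ C + 1) hOut' hO hCP hR hOR hp hρ hw0 hw1 hwoff hwl
  have hRR : (1 : ℝ) ≤ R := by exact_mod_cast hR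
  have h3 : ∑ x ∈ hO.toFinset, φ x * w x ≤ Φ / (R : ℝ) ^ 2 * ∑ x ∈ hO.toFinset, w x := by
    rw [Finset.mul_sum]
    apply Finset.sum_le_sum
    intro x hx
    exact mul_le_mul_of_nonneg_right (hφ1 x (by simpa using hx)) (hw0 x)
  calc D * (r : ℝ) ^ 2 * ∑ x ∈ hO.toFinset, φ x * w x
      ≤ D * (r : ℝ) ^ 2 * (Φ / (R : ℝ) ^ 2 * (96 * (C + 1) * (R : ℝ) ^ 2 * ((ρ : ℝ) / R) ^ γ)) := by
        gcongr
        exact h3.trans (by gcongr)
    _ = D * (96 * (C + 1)) * Φ * (r : ℝ) ^ 2 * ((ρ : ℝ) / R) ^ γ := by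
        field_simp

/-- Mass in a box with arbitrary centre. -/
theorem visits_box' {C β : ℝ} (hβ : 0 < β) (hC : 0 ≤ C) (hSD : SupDecay C β)
    (hOut : OutDecay C β) :
    ∃ γ > (0 : ℝ), γ ≤ 1 ∧ γ ≤ β ∧ ∃ D : ℝ, 0 < D ∧ ∀ (O : Set Pt), O.Finite → CPr O →
      ∀ (R : ℕ) (c : Pt), 1 ≤ R → (∀ x ∈ O, dn c x ≤ R) →
      ∀ (φ u : Pt → ℝ) (Φ : ℝ), 0 ≤ Φ → IsGreen O φ u → (∀ x ∈ O, 0 ≤ φ x) →
      (∀ x ∈ O, φ x ≤ Φ / (R : ℝ) ^ 2) →
      ∀ (p : Pt) (r ρ : ℕ), 1 ≤ r → r ≤ ρ → ∀ S : Finset Pt,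
      (∀ x ∈ S, dn p x ≤ ρ) → (∀ x ∈ S, dF O x ≤ 2 * r) →
      ∑ x ∈ S, u x ≤ D * Φ * (r : ℝ) ^ 2 * ((ρ : ℝ) / R) ^ γ := by
  obtain ⟨γ, hγ, hγ1, hγβ, D, hD, h⟩ := visits_box hβ hC hSD hOut
  refine ⟨γ, hγ, hγ1, hγβ, 4 * D, by positivity, ?_⟩
  intro O hO hCP R c hR hOR φ u Φ hΦ hu hφ0 hφ1 p r ρ hr hrρ S hSp hSd
  rcases S.eq_empty_or_nonempty with hS | ⟨x0, hx0⟩
  · subst hS
    simp only [Finset.sum_empty]
    positivity
  obtain ⟨q, hq, hqd⟩ := exists_dF (exists_notMem hO) x0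
  have h1 := h O hO hCP R c hR hOR φ u Φ hΦ hu hφ0 hφ1 q r (4 * ρ) hr (by omega) hq S
    (fun x hx => by
      have a1 := hSp x hx
      have a2 := hSp x0 hx0
      have a3 := hSd x0 hx0
      have a4 := dn_tri q x0 x
      have a5 := dn_tri x0 p x
      rw [dn_comm] at hqd
      rw [dn_comm x0 p] at a5
      omega) hSd
  refine h1.trans ?_
  have h2 : (((4 * ρ : ℕ) : ℝ) / R) ^ γ ≤ 4 * ((ρ : ℝ) / R) ^ γ := by
    push_cast
    rw [mul_div_assoc, Real.mul_rpow (by norm_num) (by positivity)]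
    apply mul_le_mul_of_nonneg_right _ (by positivity)
    calc (4 : ℝ) ^ γ ≤ 4 ^ (1 : ℝ) := Real.rpow_le_rpow_of_exponent_le (by norm_num) hγ1
      _ = 4 := Real.rpow_one 4
  calc D * Φ * (r : ℝ) ^ 2 * (((4 * ρ : ℕ) : ℝ) / R) ^ γ
      ≤ D * Φ * (r : ℝ) ^ 2 * (4 * ((ρ : ℝ) / R) ^ γ) := by gcongr
    _ = 4 * D * Φ * (r : ℝ) ^ 2 * ((ρ : ℝ) / R) ^ γ := by ring

end Vale.Agent.P155.G45
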