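import Vale.Agent.P155.G45.Mass
import Vale.Agent.P155.Skel

/-!
# P155, block G: the interface statements `G_decay`, `G_visits`, `G_local`
-/

namespace Vale.Agent.P155.G45

open Finset

/-- finsum over a set described by a predicate, for a function vanishing off a finite set -/
theorem finsum_mem_eq_sum_filter {O : Set Pt} (hO : O.Finite) {u : Pt → ℝ}
    (hu : ∀ x, x ∉ O → u x = 0) (p : Pt → Prop) [DecidablePred p] :
    ∑ᶠ x ∈ {x | p x}, u x = ∑ x ∈ hO.toFinset.filter p, u x := by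
  rw [finsum_mem_def]
  rw [finsum_eq_sum_of_support_subset (s := hO.toFinset.filter p)]
  · apply Finset.sum_congr rfl
    intro x hx
    have : x ∈ {x | p x} := (Finset.mem_filter.1 hx).2
    simp [Set.indicator_of_mem this]
  · intro x hx
    rw [Function.mem_support] at hx
    rw [Finset.coe_filter]
    have h1 : x ∈ {x | p x} := by
      by_contra h
      exact hx (Set.indicator_of_notMem h _)
    refine ⟨?_, h1⟩
    rw [Set.Finite.mem_toFinset]
    by_contra h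
    apply hx
    rw [Set.indicator_of_mem h1, hu x h]

theorem g_visits_of {C β : ℝ} (hβ : 0 < β) (hC : 0 ≤ C) (hSD : SupDecay C β) : Skel.G_visits := by
  classical
  obtain ⟨D, hD, hV⟩ := visits hβ hC hSD
  refine ⟨D, ?_⟩
  intro R O φ u hOR hCP hu hφ r hr
  have hOfin : O.Finite := (box (0, 0) R).finite_toSet.subset hOR
  rw [finsum_mem_eq_sum_filter hOfin hu.off (fun x => r ≤ dF O x ∧ dF O x ≤ 2 * r),
    finsum_mem_eq_finite_toFinset_sum _ hOfin]
  exact hV O hOfin hCP r hr _ φ u (fun x hx => (Finset.mem_filter.1 hx).2.2) hu (fun x _ => hφ x)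

theorem g_local_of {C β : ℝ} (hβ : 0 < β) (hC : 0 ≤ C) (hSD : SupDecay C β)
    (hOut : OutDecay C β) : Skel.G_local := by
  classical
  obtain ⟨γ, hγ, _, _, D, hD, hV⟩ := visits_box hβ hC hSD hOut
  refine ⟨γ, hγ, D, ?_⟩
  intro R O φ u hR hOR hCP hu hφ p r ρ hr hrρ hρR hp
  have hOfin : O.Finite := (box (0, 0) R).finite_toSet.subset hOR
  have hORd : ∀ x ∈ O, dn (0, 0) x ≤ R := fun x hx => mem_box.1 (by exact_mod_cast hOR hx)
  rw [finsum_mem_eq_sum_filter hOfin hu.off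
    (fun x => x ∈ box p ρ ∧ r ≤ dF O x ∧ dF O x ≤ 2 * r)]
  have := hV O hOfin hCP R (0, 0) hR hORd φ u 1 zero_le_one hu (fun x _ => (hφ x).1)
    (fun x _ => (hφ x).2) p r ρ hr (by omega) hp
    (hOfin.toFinset.filter (fun x => x ∈ box p ρ ∧ r ≤ dF O x ∧ dF O x ≤ 2 * r))
    (fun x hx => mem_box.1 (Finset.mem_filter.1 hx).2.1)
    (fun x hx => (Finset.mem_filter.1 hx).2.2.2)
  simpa using this

/-- Decay of Green potentials of bounded densities near the complement. -/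
theorem green_decay {C β : ℝ} (hβ : 0 < β) (hC : 0 ≤ C) (hSD : SupDecay C β) :
    ∃ D : ℝ, 0 < D ∧ ∀ (R : ℕ) (O : Set Pt) (c : Pt) (φ u : Pt → ℝ), 1 ≤ R →
      (∀ x ∈ O, dn c x ≤ R) → CPr O → IsGreen O φ u → (∀ y, |φ y| ≤ 1 / (R : ℝ) ^ 2) →
      ∀ x, |u x| ≤ D * ((dF O x : ℝ) / R) ^ (min 1 (β / 2)) := by
  refine ⟨36 + 4 * C * 4 ^ β, by positivity, ?_⟩
  intro R O c φ u hR hOR hCP hu hφ x
  have hR0 : (0 : ℝ) < R := by exact_mod_cast hR
  have hR1 : (1 : ℝ) ≤ R := by exact_mod_cast hR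
  have hOfin : O.Finite := (box c R).finite_toSet.subset (fun x hx => mem_box.2 (hOR x hx))
  set γ := min 1 (β / 2) with hγ
  have hγ0 : 0 < γ := lt_min one_pos (by positivity)
  by_cases hxO : x ∈ O
  swap
  · rw [hu.off x hxO, abs_zero]
    positivity
  -- the majorant
  obtain ⟨τ, hτ⟩ := exists_green hOfin (fun _ => (1 : ℝ))
  have hub : IsGreen O (fun _ => 1 / (R : ℝ) ^ 2) (fun x => 1 / (R : ℝ) ^ 2 * τ x) :=
    { off := fun x hx => by rw [hτ.off x hx, mul_zero]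
      eq := fun x hx => by
        rw [lap_smul]
        have := hτ.eq x hx
        linear_combination (1 / (R : ℝ) ^ 2) * this }
  have huub := abs_green_le hOfin hu hub (fun y _ => hφ y)
  refine (huub x).trans ?_
  have hτ0 : ∀ y, 0 ≤ τ y := green_nonneg hOfin hτ (fun _ _ => zero_le_one)
  have hτ4 : ∀ y, τ y ≤ 4 * (R : ℝ) ^ 2 := by
    intro y
    have h1 := exit_le (p := c) (L := R) hOR hτ (fun _ _ => le_rfl) y
    nlinarith
  obtain ⟨p, hp, hdp⟩ := exists_dF (exists_notMem hOfin) x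
  have hd0 : 0 < dF O x := dF_pos (exists_notMem hOfin) hxO
  set d := dF O x with hd
  have hd1 : (1 : ℝ) ≤ d := by exact_mod_cast hd0
  -- `d ≤ R` or trivial
  by_cases hdR : R < d
  · have h1 : (1 : ℝ) ≤ ((d : ℝ) / R) ^ γ := by
      apply Real.one_le_rpow _ hγ0.le
      rw [le_div_iff₀ hR0, one_mul]
      exact_mod_cast hdR.le
    calc 1 / (R : ℝ) ^ 2 * τ x ≤ 1 / (R : ℝ) ^ 2 * (4 * (R : ℝ) ^ 2) := by
          gcongr
          exact hτ4 x
      _ = 4 := by field_simp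
      _ ≤ (36 + 4 * C * 4 ^ β) * 1 := by
          have : 0 ≤ 4 * C * 4 ^ β := by positivity
          linarith
      _ ≤ (36 + 4 * C * 4 ^ β) * ((d : ℝ) / R) ^ γ := by gcongr
  push Not at hdR
  have hdR' : (d : ℝ) ≤ R := by exact_mod_cast hdR
  -- choose `L ≈ sqrt (d R)`
  set L := Nat.sqrt (d * R) with hL
  have hL1 : L * L ≤ d * R := Nat.sqrt_le _
  have hL2 : d * R < (L + 1) * (L + 1) := Nat.lt_succ_sqrt _
  have hdL : d ≤ L := by
    rw [hL, Nat.le_sqrt]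
    exact Nat.mul_le_mul_left _ hdR
  have hL1' : (L : ℝ) ^ 2 ≤ d * R := by
    have : ((L * L : ℕ) : ℝ) ≤ ((d * R : ℕ) : ℝ) := by exact_mod_cast hL1
    push_cast at this
    nlinarith
  have hL2' : (d : ℝ) * R ≤ ((L : ℝ) + 1) ^ 2 := by
    have : ((d * R : ℕ) : ℝ) ≤ (((L + 1) * (L + 1) : ℕ) : ℝ) := by exact_mod_cast hL2.le
    push_cast at this
    nlinarith
  have hLd' : (1 : ℝ) ≤ L := by
    have : (d : ℝ) ≤ L := by exact_mod_cast hdL
    linarith
  have hpx : dn p x = d := by rw [dn_comm]; exact hdp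
  set O' : Set Pt := {y | y ∈ O ∧ dn p y < L} with hO'
  have hO'fin : O'.Finite := hOfin.subset (fun y hy => hy.1)
  obtain ⟨v1, hv1⟩ := exists_green hO'fin (fun _ => (1 : ℝ))
  have h1 : v1 x ≤ ((L : ℝ) + 1) ^ 2 :=
    exit_le (p := p) (L := L) (fun y hy => hy.2.le) hv1 (fun y _ => le_rfl) x
  have hv10 : ∀ y, 0 ≤ v1 y := green_nonneg hO'fin hv1 (fun y _ => zero_le_one)
  have hv1v : ∀ y, v1 y ≤ τ y := by
    apply comparison hO'fin
    · intro y hy
      linarith [hv1.eq y hy, hτ.eq y hy.1]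
    · intro y hy
      rw [hv1.off y hy]; exact hτ0 y
  have h2 := hSD O p L (4 * (R : ℝ) ^ 2) (fun y => τ y - v1 y) (fun s _ => hCP p hp s)
    (fun y hy => by
      have : y ∉ O' := fun h => hy h.1
      rw [hτ.off y hy, hv1.off y this]; simp)
    (fun y hy hyL => by
      rw [lap_sub]
      linarith [hv1.eq y ⟨hy, hyL⟩, hτ.eq y hy])
    (fun y _ => by
      rw [abs_le]
      constructor
      · nlinarith [hv1v y, hτ0 y, sq_nonneg (R : ℝ)]
      · linarith [hv10 y, hτ4 y])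
    x (by omega)
  have h3 : τ x ≤ ((L : ℝ) + 1) ^ 2 +
      C * (((d : ℝ) + 1) / ((L : ℝ) + 1)) ^ β * (4 * (R : ℝ) ^ 2) := by
    have := (le_abs_self _).trans h2
    rw [hpx] at this
    linarith
  -- first term
  have hq0 : 0 ≤ (d : ℝ) / R := by positivity
  have hq1 : (d : ℝ) / R ≤ 1 := by rw [div_le_one hR0]; exact hdR'
  have hqγ : (d : ℝ) / R ≤ ((d : ℝ) / R) ^ γ := by
    calc (d : ℝ) / R = ((d : ℝ) / R) ^ (1 : ℝ) := (Real.rpow_one _).symm
      _ ≤ ((d : ℝ) / R) ^ γ :=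
        Real.rpow_le_rpow_of_exponent_ge (by positivity) hq1 (min_le_left _ _)
  have t1 : 1 / (R : ℝ) ^ 2 * ((L : ℝ) + 1) ^ 2 ≤ 4 * ((d : ℝ) / R) ^ γ := by
    have : ((L : ℝ) + 1) ^ 2 ≤ 4 * (d * R) := by nlinarith
    calc 1 / (R : ℝ) ^ 2 * ((L : ℝ) + 1) ^ 2 ≤ 1 / (R : ℝ) ^ 2 * (4 * (d * R)) := by gcongr
      _ = 4 * ((d : ℝ) / R) := by field_simp
      _ ≤ 4 * ((d : ℝ) / R) ^ γ := by gcongr
  -- second term
  have t2 : (((d : ℝ) + 1) / ((L : ℝ) + 1)) ^ β ≤ 4 ^ β * ((d : ℝ) / R) ^ γ := by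
    have e1 : (((d : ℝ) + 1) / ((L : ℝ) + 1)) ^ 2 ≤ 4 * ((d : ℝ) / R) := by
      rw [div_pow, div_le_iff₀ (by positivity)]
      have : ((d : ℝ) + 1) ^ 2 ≤ 4 * d ^ 2 := by nlinarith
      calc ((d : ℝ) + 1) ^ 2 ≤ 4 * d ^ 2 := this
        _ = 4 * ((d : ℝ) / R) * (d * R) := by field_simp
        _ ≤ 4 * ((d : ℝ) / R) * ((L : ℝ) + 1) ^ 2 := by gcongr
    have e2 : (((d : ℝ) + 1) / ((L : ℝ) + 1)) ^ β =
        ((((d : ℝ) + 1) / ((L : ℝ) + 1)) ^ 2) ^ (β / 2) := by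
      rw [← Real.rpow_natCast, ← Real.rpow_mul (by positivity)]
      congr 1
      push_cast
      ring
    rw [e2]
    calc ((((d : ℝ) + 1) / ((L : ℝ) + 1)) ^ 2) ^ (β / 2) ≤ (4 * ((d : ℝ) / R)) ^ (β / 2) :=
          Real.rpow_le_rpow (by positivity) e1 (by positivity)
      _ = 4 ^ (β / 2) * ((d : ℝ) / R) ^ (β / 2) := Real.mul_rpow (by norm_num) hq0
      _ ≤ 4 ^ β * ((d : ℝ) / R) ^ γ := by
          apply mul_le_mul _ _ (by positivity) (by positivity)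
          · apply Real.rpow_le_rpow_of_exponent_le (by norm_num); linarith
          · exact Real.rpow_le_rpow_of_exponent_ge (by positivity) hq1 (min_le_right _ _)
  have hpow : 0 ≤ ((d : ℝ) / R) ^ γ := by positivity
  calc 1 / (R : ℝ) ^ 2 * τ x ≤ 1 / (R : ℝ) ^ 2 * (((L : ℝ) + 1) ^ 2 +
        C * (((d : ℝ) + 1) / ((L : ℝ) + 1)) ^ β * (4 * (R : ℝ) ^ 2)) := by gcongr
    _ = 1 / (R : ℝ) ^ 2 * ((L : ℝ) + 1) ^ 2 + 4 * C * (((d : ℝ) + 1) / ((L : ℝ) + 1)) ^ β := by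
        field_simp
    _ ≤ 4 * ((d : ℝ) / R) ^ γ + 4 * C * (4 ^ β * ((d : ℝ) / R) ^ γ) := by
        apply add_le_add t1
        apply mul_le_mul_of_nonneg_left t2 (by positivity)
    _ ≤ (36 + 4 * C * 4 ^ β) * ((d : ℝ) / R) ^ γ := by nlinarith

theorem g_decay_of {C β : ℝ} (hβ : 0 < β) (hC : 0 ≤ C) (hSD : SupDecay C β) : Skel.G_decay := by
  obtain ⟨D, hD, h⟩ := green_decay hβ hC hSD
  refine ⟨min 1 (β / 2), lt_min one_pos (by positivity), D, ?_⟩
  intro R O φ u hR hOR hCP hu hφ x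
  exact h R O (0, 0) φ u hR (fun x hx => mem_box.1 (by exact_mod_cast hOR hx)) hCP hu hφ x

end Vale.Agent.P155.G45
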