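import Vale.Agent.P155.G45.Basic

/-!
# P155, block G5: the Visits lemma
-/

namespace Vale.Agent.P155.G45

open Finset

/-- Every square contour around a point off `O` meets the complement of `O`. -/
def CPr (O : Set Pt) : Prop := ∀ p, p ∉ O → ∀ r : ℕ, ∃ y, y ∉ O ∧ dn p y = r

/-- Inward decay (block G1). -/
def SupDecay (C β : ℝ) : Prop := ∀ (O : Set Pt) (p : Pt) (L : ℕ) (M : ℝ) (u : Pt → ℝ),
  (∀ r : ℕ, r ≤ L → ∃ q, q ∉ O ∧ dn p q = r) → (∀ x, x ∉ O → u x = 0) →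
  (∀ x ∈ O, dn p x < L → lap u x = 0) → (∀ x, dn p x ≤ L → |u x| ≤ M) →
  ∀ x, dn p x ≤ L → |u x| ≤ C * (((dn p x : ℝ) + 1) / ((L : ℝ) + 1)) ^ β * M

/-- Outward decay (block G1). -/
def OutDecay (C β : ℝ) : Prop := ∀ (O : Set Pt) (p : Pt) (ρ : ℕ) (M : ℝ) (u : Pt → ℝ), O.Finite →
  (∀ r : ℕ, ∃ q, q ∉ O ∧ dn p q = r) → (∀ x, x ∉ O → u x = 0) →
  (∀ x ∈ O, ρ < dn p x → lap u x = 0) → (∀ x, dn p x ≤ ρ → |u x| ≤ M) →
  ∀ x, ρ < dn p x → |u x| ≤ C * (((ρ : ℝ) + 1) / ((dn p x : ℝ) + 1)) ^ β * M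

theorem exists_K {C β ε : ℝ} (hβ : 0 < β) (hC : 0 ≤ C) (hε : 0 < ε) :
    ∃ K : ℕ, 3 ≤ K ∧ C * ((3 : ℝ) / K) ^ β ≤ ε := by
  have h1 : Filter.Tendsto (fun K : ℕ => (3 : ℝ) / K) Filter.atTop (nhds 0) :=
    tendsto_const_div_atTop_nhds_zero_nat 3
  have h2 := h1.rpow_const (p := β) (Or.inr hβ.le)
  rw [Real.zero_rpow hβ.ne'] at h2
  have h3 := h2.const_mul C
  rw [mul_zero] at h3
  have h4 := (h3.eventually (gt_mem_nhds hε)).and (Filter.eventually_ge_atTop 3)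
  obtain ⟨K, hK1, hK2⟩ := h4.exists
  exact ⟨K, hK2, hK1.le⟩

/-- The potential of (a part of) a layer at distance `≤ 2r` from the complement is at most `D r²`. -/
theorem visits_potential {C β : ℝ} (hβ : 0 < β) (hC : 0 ≤ C) (hSD : SupDecay C β) :
    ∃ D : ℝ, 0 < D ∧ ∀ (O : Set Pt), O.Finite → CPr O → ∀ r : ℕ, 1 ≤ r →
      ∀ ψ v : Pt → ℝ, (∀ x, 0 ≤ ψ x) → (∀ x, ψ x ≤ 1) → (∀ x, ψ x ≠ 0 → dF O x ≤ 2 * r) →
      IsGreen O ψ v → ∀ x, v x ≤ D * (r : ℝ) ^ 2 := by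
  classical
  obtain ⟨K, hK3, hK⟩ := exists_K hβ hC (ε := 1 / 2) (by norm_num)
  refine ⟨2 * ((K : ℝ) + 1) ^ 2, by positivity, ?_⟩
  intro O hO hCP r hr ψ v hψ0 hψ1 hψd hv x
  have hv0 : ∀ y, 0 ≤ v y := green_nonneg hO hv (fun y _ => hψ0 y)
  have hr1 : (1 : ℝ) ≤ r := by exact_mod_cast hr
  set S := hO.toFinset.filter (fun y => ψ y ≠ 0) with hS
  rcases S.eq_empty_or_nonempty with hSe | hSne
  · -- zero potential
    have h0 : ∀ y ∈ O, ψ y = 0 := by
      intro y hy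
      by_contra hne
      have : y ∈ S := by simp [hS, hy, hne]
      rw [hSe] at this
      simp at this
    have := green_le_super hO hv (w := fun _ => 0)
      (fun y hy => by rw [lap_const, h0 y hy]; simp) (fun _ _ => le_rfl) x
    refine this.trans (by positivity)
  obtain ⟨z, hzS, hz⟩ := S.exists_max_image v hSne
  have hzO : z ∈ O := by
    have := (Finset.mem_filter.1 hzS).1
    simpa using this
  have hzψ : ψ z ≠ 0 := (Finset.mem_filter.1 hzS).2
  have hmax : ∀ y, v y ≤ v z := by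
    have hfin : (O \ {y | ψ y ≠ 0}).Finite := hO.subset Set.sdiff_subset
    apply comparison hfin
    · intro y hy
      rw [lap_const]
      have h1 := hv.eq y hy.1
      have h2 : ψ y = 0 := by
        by_contra hne
        exact hy.2 hne
      linarith
    · intro y hy
      by_cases hyO : y ∈ O
      · have : y ∈ S := by
          simp only [hS, Finset.mem_filter, Set.Finite.mem_toFinset]
          refine ⟨hyO, ?_⟩
          by_contra hne
          exact hy ⟨hyO, by simpa using hne⟩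
        exact hz y this
      · rw [hv.off y hyO]; exact hv0 z
  refine (hmax x).trans ?_
  -- nearest point of the complement
  obtain ⟨p, hpO, hdp⟩ := exists_dF (exists_notMem hO) z
  have hd2 : dn p z ≤ 2 * r := by
    rw [dn_comm, hdp]; exact hψd z hzψ
  set L := K * r with hL
  have hLz : dn p z ≤ L := by
    have : 3 * r ≤ K * r := Nat.mul_le_mul_right r hK3
    omega
  set O' : Set Pt := {y | y ∈ O ∧ dn p y < L} with hO'
  have hO'fin : O'.Finite := hO.subset (fun y hy => hy.1)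
  obtain ⟨v1, hv1⟩ := exists_green hO'fin ψ
  have h1 : v1 z ≤ ((L : ℝ) + 1) ^ 2 :=
    exit_le (p := p) (L := L) (fun y hy => hy.2.le) hv1 (fun y _ => hψ1 y) z
  have hv10 : ∀ y, 0 ≤ v1 y := green_nonneg hO'fin hv1 (fun y _ => hψ0 y)
  have hv1v : ∀ y, v1 y ≤ v y := by
    apply comparison hO'fin
    · intro y hy
      linarith [hv1.eq y hy, hv.eq y hy.1]
    · intro y hy
      rw [hv1.off y hy]; exact hv0 y
  have h2 := hSD O p L (v z) (fun y => v y - v1 y) (fun s _ => hCP p hpO s)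
    (fun y hy => by
      have : y ∉ O' := fun h => hy h.1
      rw [hv.off y hy, hv1.off y this]; simp)
    (fun y hy hyL => by
      rw [lap_sub]
      linarith [hv1.eq y ⟨hy, hyL⟩, hv.eq y hy])
    (fun y _ => by
      rw [abs_le]
      constructor
      · linarith [hv1v y, hv0 z]
      · linarith [hv10 y, hmax y])
    z hLz
  have h3 : v z - v1 z ≤ 1 / 2 * v z := by
    refine (le_abs_self _).trans (h2.trans ?_)
    apply mul_le_mul_of_nonneg_right _ (hv0 z)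
    refine le_trans ?_ hK
    apply mul_le_mul_of_nonneg_left _ hC
    apply Real.rpow_le_rpow (by positivity) _ hβ.le
    have hKpos : (0 : ℝ) < K := by
      have : (3 : ℝ) ≤ K := by exact_mod_cast hK3
      linarith
    rw [div_le_div_iff₀ (by positivity) hKpos]
    have hd2' : (dn p z : ℝ) ≤ 2 * r := by exact_mod_cast hd2
    rw [hL]
    push_cast
    nlinarith
  have h4 : v z ≤ 2 * ((L : ℝ) + 1) ^ 2 := by linarith
  refine h4.trans ?_
  rw [mul_assoc]
  gcongr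
  rw [← mul_pow]
  have : (L : ℝ) + 1 ≤ ((K : ℝ) + 1) * r := by
    rw [hL]; push_cast; nlinarith
  gcongr

/-- Localized potential bound: with a supersolution `w ≥ 1` on the support of `ψ`. -/
theorem visits_potential_local {C β : ℝ} (hβ : 0 < β) (hC : 0 ≤ C) (hSD : SupDecay C β) :
    ∃ D : ℝ, 0 < D ∧ ∀ (O : Set Pt), O.Finite → CPr O → ∀ r : ℕ, 1 ≤ r →
      ∀ ψ v w : Pt → ℝ, (∀ x, 0 ≤ ψ x) → (∀ x, ψ x ≤ 1) → (∀ x, ψ x ≠ 0 → dF O x ≤ 2 * r) →
      IsGreen O ψ v → (∀ x, 0 ≤ w x) → (∀ x ∈ O, ψ x = 0 → lap w x ≤ 0) →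
      (∀ x ∈ O, ψ x ≠ 0 → 1 ≤ w x) →
      ∀ x, v x ≤ D * (r : ℝ) ^ 2 * w x := by
  obtain ⟨D, hD, h⟩ := visits_potential hβ hC hSD
  refine ⟨D, hD, ?_⟩
  intro O hO hCP r hr ψ v w hψ0 hψ1 hψd hv hw0 hwl hw1
  have hb := h O hO hCP r hr ψ v hψ0 hψ1 hψd hv
  have hfin : (O \ {y | ψ y ≠ 0}).Finite := hO.subset Set.sdiff_subset
  apply comparison hfin
  · intro y hy
    have h2 : ψ y = 0 := by
      by_contra hne
      exact hy.2 hne
    rw [lap_smul]
    have h1 := hv.eq y hy.1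
    have h3 := hwl y hy.1 h2
    have h4 : 0 ≤ D * (r : ℝ) ^ 2 := by positivity
    nlinarith
  · intro y hy
    have h4 : 0 ≤ D * (r : ℝ) ^ 2 := by positivity
    by_cases hyO : y ∈ O
    · have hne : ψ y ≠ 0 := by
        by_contra hne
        exact hy ⟨hyO, by simpa using hne⟩
      refine (hb y).trans ?_
      have := hw1 y hyO hne
      nlinarith
    · rw [hv.off y hyO]
      exact mul_nonneg h4 (hw0 y)

open Classical in
/-- **Visits lemma**, localized form. `S` is any finite set of points of `O` at distance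
`≤ 2r` from the complement and `w ≥ 0` is superharmonic on `O \ S` and `≥ 1` on `S`. -/
theorem visits_local {C β : ℝ} (hβ : 0 < β) (hC : 0 ≤ C) (hSD : SupDecay C β) :
    ∃ D : ℝ, 0 < D ∧ ∀ (O : Set Pt) (hO : O.Finite), CPr O → ∀ r : ℕ, 1 ≤ r →
      ∀ (S : Finset Pt) (φ u w : Pt → ℝ), (∀ x ∈ S, dF O x ≤ 2 * r) →
      IsGreen O φ u → (∀ x ∈ O, 0 ≤ φ x) → (∀ x, 0 ≤ w x) → (∀ x ∈ O, x ∉ S → lap w x ≤ 0) →
      (∀ x ∈ S, 1 ≤ w x) →
      ∑ x ∈ S, u x ≤ D * (r : ℝ) ^ 2 * ∑ x ∈ hO.toFinset, φ x * w x := by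
  obtain ⟨D, hD, h⟩ := visits_potential_local hβ hC hSD
  refine ⟨D, hD, ?_⟩
  intro O hO hCP r hr S φ u w hSd hu hφ hw0 hwl hw1
  set ψ : Pt → ℝ := fun x => if x ∈ S then 1 else 0 with hψ
  obtain ⟨v, hv⟩ := exists_green hO ψ
  have hb := h O hO hCP r hr ψ v w (fun x => by simp only [hψ]; split_ifs <;> norm_num)
    (fun x => by simp only [hψ]; split_ifs <;> norm_num)
    (fun x hx => by
      apply hSd
      by_contra hne
      exact hx (by simp [hψ, hne])) hv hw0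
    (fun x hxO hx => hwl x hxO (by
      intro hxS
      simp [hψ, hxS] at hx))
    (fun x _ hx => hw1 x (by
      by_contra hne
      exact hx (by simp [hψ, hne])))
  have hs := green_symm' hO hu hv
  have h1 : ∑ x ∈ S, u x = ∑ x ∈ hO.toFinset, u x * ψ x := by
    have : ∑ x ∈ hO.toFinset, u x * ψ x = ∑ x ∈ hO.toFinset.filter (· ∈ S), u x := by
      rw [Finset.sum_filter]
      apply Finset.sum_congr rfl
      intro x _
      by_cases hx : x ∈ S <;> simp [hψ, hx]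
    rw [this]
    symm
    apply Finset.sum_subset
    · intro x hx
      exact (Finset.mem_filter.1 hx).2
    · intro x hxS hx
      apply hu.off
      intro hxO
      exact hx (Finset.mem_filter.2 ⟨by simpa using hxO, hxS⟩)
  rw [h1, ← hs, Finset.mul_sum]
  apply Finset.sum_le_sum
  intro x hx
  have hxO : x ∈ O := by simpa using hx
  have := hb x
  have h2 := hφ x hxO
  nlinarith

/-- **Visits lemma.** -/
theorem visits {C β : ℝ} (hβ : 0 < β) (hC : 0 ≤ C) (hSD : SupDecay C β) :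
    ∃ D : ℝ, 0 < D ∧ ∀ (O : Set Pt) (hO : O.Finite), CPr O → ∀ r : ℕ, 1 ≤ r →
      ∀ (S : Finset Pt) (φ u : Pt → ℝ), (∀ x ∈ S, dF O x ≤ 2 * r) →
      IsGreen O φ u → (∀ x ∈ O, 0 ≤ φ x) →
      ∑ x ∈ S, u x ≤ D * (r : ℝ) ^ 2 * ∑ x ∈ hO.toFinset, φ x := by
  obtain ⟨D, hD, h⟩ := visits_local hβ hC hSD
  refine ⟨D, hD, ?_⟩
  intro O hO hCP r hr S φ u hSd hu hφ
  have := h O hO hCP r hr S φ u (fun _ => 1) hSd hu hφ (fun _ => zero_le_one)
    (fun x _ _ => by rw [lap_const]) (fun _ _ => le_rfl)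
  simpa using this

end Vale.Agent.P155.G45
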