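import Vale.Agent.P155.G45.Cut
import Vale.Agent.P155.G45.Harnack
import Vale.Agent.P155.J.Iface

/-!
# P155, block G4: the Whitney partition `χ u = ∑ ψ_q`
-/

namespace Vale.Agent.P155.G45

open Finset Vale.Agent.P155.G

theorem dinf_eq_dn (x z : Pt) : dinf x z = (dn x z : ℤ) := by
  unfold dn
  rw [Int.toNat_of_nonneg (dinf_nonneg x z)]

theorem cutf_isCut {O : Set Pt} (hO : ∃ q, q ∉ O) {s : ℕ} (hs : 8 ≤ s) {C : ℝ}
    (hC : 32 ^ 4 ≤ C) : J.IsCut O s C (cutf O s) where
  nonneg := cutf_nonneg O s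
  le_one := cutf_le_one O hs
  zero := fun _ hx => cutf_zero hO hs hx
  one := fun _ hx => cutf_one hO hs hx
  diff := fun a b hab y => (cutf_diff O hs a b hab y).trans (by gcongr)

/-! ## the grid partition of unity -/

/-- side of the cells at scale `t` -/
def cs (t : ℕ) : ℕ := max 1 (t / 2)

/-- averaging length at scale `t` -/
def am (t : ℕ) : ℕ := max 1 (t / 8)

theorem cs_pos (t : ℕ) : 0 < cs t := by unfold cs; omega
theorem am_pos (t : ℕ) : 1 ≤ am t := by unfold am; omega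
theorem cs_le {t : ℕ} (ht : 1 ≤ t) : cs t ≤ t := by unfold cs; omega
theorem le_cs (t : ℕ) : t ≤ 3 * cs t := by unfold cs; omega
theorem am_le (t : ℕ) : t ≤ 16 * am t := by unfold am; omega

/-- index of the cell of a point -/
def cidx (t : ℕ) (z : Pt) : Pt := (z.1 / (cs t : ℤ), z.2 / (cs t : ℤ))

/-- corner of a cell -/
def corner (t : ℕ) (k : Pt) : Pt := ((cs t : ℤ) * k.1, (cs t : ℤ) * k.2)

theorem cidx_bound (t : ℕ) (z : Pt) : (corner t (cidx t z)).1 ≤ z.1 ∧
    z.1 ≤ (corner t (cidx t z)).1 + (cs t - 1 : ℤ) ∧ (corner t (cidx t z)).2 ≤ z.2 ∧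
    z.2 ≤ (corner t (cidx t z)).2 + (cs t - 1 : ℤ) := by
  have hp : (0 : ℤ) < cs t := by exact_mod_cast cs_pos t
  unfold corner cidx
  simp only
  have h1 := Int.emod_add_mul_ediv z.1 (cs t)
  have h2 := Int.emod_nonneg z.1 hp.ne'
  have h3 := Int.emod_lt_of_pos z.1 hp
  have h4 := Int.emod_add_mul_ediv z.2 (cs t)
  have h5 := Int.emod_nonneg z.2 hp.ne'
  have h6 := Int.emod_lt_of_pos z.2 hp
  refine ⟨?_, ?_, ?_, ?_⟩ <;> linarith

theorem cidx_corner (t : ℕ) (k : Pt) (i j : ℕ) (hi : i < cs t) (hj : j < cs t) :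
    cidx t ((corner t k).1 + i, (corner t k).2 + j) = k := by
  have hp : (0 : ℤ) < cs t := by exact_mod_cast cs_pos t
  unfold corner cidx
  simp only
  have e1 : ((cs t : ℤ) * k.1 + (i : ℤ)) / (cs t : ℤ) = k.1 := by
    rw [Int.add_comm, Int.add_mul_ediv_left _ _ hp.ne', Int.ediv_eq_zero_of_lt (by positivity)
      (by exact_mod_cast hi)]
    simp
  have e2 : ((cs t : ℤ) * k.2 + (j : ℤ)) / (cs t : ℤ) = k.2 := by
    rw [Int.add_comm, Int.add_mul_ediv_left _ _ hp.ne', Int.ediv_eq_zero_of_lt (by positivity)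
      (by exact_mod_cast hj)]
    simp
  rw [e1, e2]

/-- one element of the partition of unity -/
noncomputable def rho (t : ℕ) (k : Pt) : Pt → ℝ :=
  Av (am t) (fun z => if cidx t z = k then 1 else 0)

theorem rho_supp {t : ℕ} (ht : 1 ≤ t) {k z : Pt} (h : rho t k z ≠ 0) : dn (corner t k) z ≤ t := by
  by_contra hcon
  apply h
  unfold rho
  apply Av_eq_const (am_pos t)
  intro i j hi hj
  rw [if_neg]
  intro hk
  apply hcon
  have hb := cidx_bound t (z.1 + i, z.2 + j)
  rw [hk] at hb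
  simp only at hb
  have h1 : 4 * (am t - 1) ≤ t / 2 := by unfold am; omega
  have h2 : cs t - 1 ≤ t := by have := cs_le ht; omega
  have h3 := cs_pos t
  rw [dn_eq]
  omega

theorem rho_diff (t : ℕ) (ht : 1 ≤ t) (k : Pt) (a b : ℕ) (hab : a + b ≤ 4) (y : Pt) :
    |(Dx^[a] (Dy^[b] (rho t k))) y| ≤ 32 ^ 4 * ((t : ℝ)⁻¹) ^ (a + b) := by
  have h1 := Av_diff_bound (am_pos t) (f := fun z => if cidx t z = k then (1 : ℝ) else 0)
    (M := 1) (fun z => by
      by_cases hc : cidx t z = k <;> simp [hc]) a b (by omega) (by omega) y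
  unfold rho
  refine h1.trans ?_
  rw [mul_one]
  have hs0 : (0 : ℝ) < t := by
    have : 0 < t := by omega
    exact_mod_cast this
  have hm' : (t : ℝ) / 16 ≤ ((am t : ℕ) : ℝ) := by
    have h3 : (t : ℝ) ≤ 16 * ((am t : ℕ) : ℝ) := by exact_mod_cast am_le t
    linarith
  have h4 : 2 / ((am t : ℕ) : ℝ) ≤ 32 * (t : ℝ)⁻¹ := by
    calc 2 / ((am t : ℕ) : ℝ) ≤ 2 / ((t : ℝ) / 16) := by
          apply div_le_div_of_nonneg_left (by norm_num) (by positivity) hm'
      _ = 32 * (t : ℝ)⁻¹ := by field_simp; norm_num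
  calc (2 / ((am t : ℕ) : ℝ)) ^ (a + b) ≤ (32 * (t : ℝ)⁻¹) ^ (a + b) := by gcongr
    _ = 32 ^ (a + b) * ((t : ℝ)⁻¹) ^ (a + b) := mul_pow _ _ _
    _ ≤ 32 ^ 4 * ((t : ℝ)⁻¹) ^ (a + b) := by
        apply mul_le_mul_of_nonneg_right _ (by positivity)
        exact pow_le_pow_right₀ (by norm_num) hab

/-- the finite set of relevant cells -/
noncomputable def cellset (t R : ℕ) : Finset Pt := (box (0, 0) (R + t)).image (cidx t)

theorem rho_sum {t : ℕ} {R : ℕ} {y : Pt} (hy : dn (0, 0) y ≤ R) :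
    ∑ k ∈ cellset t R, rho t k y = 1 := by
  have h := congrFun (Av_sum (am t) (cellset t R) (fun k z => if cidx t z = k then (1 : ℝ) else 0)) y
  unfold rho
  rw [← h]
  apply Av_eq_const (am_pos t)
  intro i j hi hj
  have hmem : cidx t (y.1 + i, y.2 + j) ∈ cellset t R := by
    unfold cellset
    apply Finset.mem_image_of_mem
    rw [mem_box]
    have h1 : 4 * (am t - 1) ≤ t := by unfold am; omega
    rw [dn_eq] at *
    simp only at *
    omega
  rw [Finset.sum_ite_eq, if_pos hmem]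

/-! ## a single bump -/

theorem bump_of {A : ℝ} (hA : 1 ≤ A)
    (hH : ∀ (x : Pt) (r : ℕ) (c : ℝ) (h : Pt → ℝ), 0 ≤ c → (∀ y, dn x y ≤ 2 * r → 0 ≤ h y) →
      (∀ y, dn x y < 2 * r → - lap h y = c) → ∀ y z, dn x y ≤ r → dn x z ≤ r → h y ≤ A * h z)
    {O : Set Pt} (hO : O.Finite) {R : ℕ} (hR : 1 ≤ R) {C0 : ℝ}
    {φ u ub : Pt → ℝ} (hφ : IsBump (0, 0) R (C0 / (R : ℝ) ^ 2) φ) (hu : IsGreen O φ u)
    (hub : IsGreen O (fun _ => C0 / (R : ℝ) ^ 2) ub) {n t : ℕ} (ht : 1 ≤ t) (htn : 16 * t ≤ n)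
    (hn : 8 ≤ n) (hnR : n ≤ R) {x : Pt} (hx : 7 * n ≤ dF O x) {lam ρ : Pt → ℝ} {Λ P : ℝ}
    (hlam : ∀ a b : ℕ, a + b ≤ 4 → ∀ y, |(Dx^[a] (Dy^[b] lam)) y| ≤ Λ * ((t : ℝ)⁻¹) ^ (a + b))
    (hρ : ∀ a b : ℕ, a + b ≤ 4 → ∀ y, |(Dx^[a] (Dy^[b] ρ)) y| ≤ P * ((t : ℝ)⁻¹) ^ (a + b))
    (hρs : ∀ y, ρ y ≠ 0 → dn x y ≤ t) :
    IsBump x t (256 * (Λ * P) * (64 ^ 4 * (A + 21) * ub x)) (fun y => lam y * ρ y * u y) := by
  have hR0 : (0 : ℝ) < R := by exact_mod_cast hR
  have ht0 : (0 : ℝ) < t := by exact_mod_cast ht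
  have hn0 : (0 : ℝ) < n := by
    have : 0 < n := by omega
    exact_mod_cast this
  have hφ0 : ∀ y, |φ y| ≤ C0 / (R : ℝ) ^ 2 := by
    intro y
    have := hφ.2 0 0 (by omega) y
    simpa using this
  have hc0 : 0 ≤ C0 / (R : ℝ) ^ 2 := (abs_nonneg _).trans (hφ0 (0, 0))
  have hub0 : ∀ y, 0 ≤ ub y := green_nonneg hO hub (fun _ _ => hc0)
  have huub : ∀ y, |u y| ≤ ub y := abs_green_le hO hu hub (fun y _ => hφ0 y)
  have hin : ∀ y, dn x y ≤ 6 * n → y ∈ O := fun y hy => mem_of_lt_dF (x := x) (by omega)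
  -- Harnack
  have hHar : ∀ y, dn x y ≤ 3 * n → ub y ≤ A * ub x := by
    intro y hy
    exact hH x (3 * n) (C0 / (R : ℝ) ^ 2) ub hc0 (fun y _ => hub0 y)
      (fun y hy => hub.eq y (hin y (by omega))) y x hy (by rw [dn_self]; omega)
  -- lower bound for `ub x`
  have hlow : C0 / (R : ℝ) ^ 2 * (12 * (n : ℝ) ^ 2) ≤ ub x := by
    have h1 := sub_le_green hO hub (w := fun y => C0 / (R : ℝ) ^ 2 *
      ((dF O x : ℝ) ^ 2 / 4 + (-1 / 4) * sqd x y)) ?_ ?_ x
    · simp only [sqd_self, mul_zero, add_zero] at h1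
      refine le_trans ?_ h1
      apply mul_le_mul_of_nonneg_left _ hc0
      have : ((7 * n : ℕ) : ℝ) ≤ dF O x := by exact_mod_cast hx
      push_cast at this
      have h2 : (7 * (n : ℝ)) ^ 2 ≤ (dF O x : ℝ) ^ 2 := by gcongr
      nlinarith [sq_nonneg (n : ℝ)]
    · intro y hy
      rw [lap_smul, lap_add, lap_const, lap_smul, lap_sqd]
      linarith
    · intro y hy
      have h1 : dF O x ≤ dn x y := dF_le hy
      have h2 : ((dF O x : ℕ) : ℝ) ≤ dn x y := by exact_mod_cast h1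
      have h3 := le_sqd x y
      have h4 : (dF O x : ℝ) ^ 2 ≤ (dn x y : ℝ) ^ 2 := by gcongr
      apply mul_nonpos_of_nonneg_of_nonpos hc0
      linarith
  -- bounds for the differences of `u`
  have hud : ∀ a b : ℕ, a + b ≤ 4 → ∀ z, dn x z ≤ t + 8 →
      |(Dx^[a] (Dy^[b] u)) z| ≤ (64 ^ 4 * (A + 21) * ub x) * ((t : ℝ)⁻¹) ^ (a + b) := by
    intro a b hab z hz
    have h1 := diff_le 4 (3 * n) (by norm_num) (by omega) u x (A * ub x)
      (27 * (C0 / (R : ℝ) ^ 2))
      (fun y hy => by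
        rw [dinf_eq_dn] at hy
        have hy' : dn x y ≤ 3 * n := by exact_mod_cast hy
        exact (huub y).trans (hHar y hy'))
      (fun a' b' hab' y hy => by
        rw [dinf_eq_dn] at hy
        have hy' : dn x y + (a' + b') < 3 * n := by exact_mod_cast hy
        have e1 : (Dx^[a'] (Dy^[b'] (fun z => lap u z + φ z))) y = 0 := by
          apply D_zero_of_stencil
          intro i j hi hj
          have : ((y.1 + (i : ℤ), y.2 + (j : ℤ)) : Pt) ∈ O := by
            apply hin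
            rw [dn_eq] at *
            simp only
            omega
          linarith [hu.eq _ this]
        rw [D_add] at e1
        have e2 : |(Dx^[a'] (Dy^[b'] (lap u))) y| = |(Dx^[a'] (Dy^[b'] φ)) y| := by
          have e3 : (Dx^[a'] (Dy^[b'] (lap u))) y + (Dx^[a'] (Dy^[b'] φ)) y = 0 := e1
          have : (Dx^[a'] (Dy^[b'] (lap u))) y = - (Dx^[a'] (Dy^[b'] φ)) y := by
            linarith
          rw [this, abs_neg]
        rw [e2]
        refine (hφ.2 a' b' (by omega) y).trans ?_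
        have h3 : (R : ℝ)⁻¹ ≤ 3 * (((3 * n : ℕ) : ℝ))⁻¹ := by
          push_cast
          rw [mul_inv, ← mul_assoc]
          norm_num
          exact inv_anti₀ hn0 (by exact_mod_cast hnR)
        calc C0 / (R : ℝ) ^ 2 * ((R : ℝ)⁻¹) ^ (a' + b')
            ≤ C0 / (R : ℝ) ^ 2 * (3 * (((3 * n : ℕ) : ℝ))⁻¹) ^ (a' + b') := by gcongr
          _ = 3 ^ (a' + b') * (C0 / (R : ℝ) ^ 2) * ((((3 * n : ℕ) : ℝ))⁻¹) ^ (a' + b') := by
              rw [mul_pow]; ring
          _ ≤ 27 * (C0 / (R : ℝ) ^ 2) * ((((3 * n : ℕ) : ℝ))⁻¹) ^ (a' + b') := by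
              apply mul_le_mul_of_nonneg_right _ (by positivity)
              apply mul_le_mul_of_nonneg_right _ hc0
              calc (3 : ℝ) ^ (a' + b') ≤ 3 ^ 3 := pow_le_pow_right₀ (by norm_num) (by omega)
                _ = 27 := by norm_num)
      a b hab z (by
        rw [dinf_eq_dn]
        have : 2 * dn x z ≤ 3 * n := by omega
        exact_mod_cast this)
    refine h1.trans ?_
    have hub' := hub0 x
    have hcn : C0 / (R : ℝ) ^ 2 * (n : ℝ) ^ 2 ≤ ub x / 12 := by linarith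
    have h2 : A * ub x + ((3 * n : ℕ) : ℝ) ^ 2 * (27 * (C0 / (R : ℝ) ^ 2)) ≤ (A + 21) * ub x := by
      push_cast
      nlinarith
    have h2' : 0 ≤ A * ub x + ((3 * n : ℕ) : ℝ) ^ 2 * (27 * (C0 / (R : ℝ) ^ 2)) := by
      have h5 : 0 ≤ ub x := hub0 x
      have h6 : 0 ≤ A := by linarith
      positivity
    have h3 : (((3 * n : ℕ) : ℝ))⁻¹ ≤ (t : ℝ)⁻¹ := by
      apply inv_anti₀ ht0
      have : t ≤ 3 * n := by omega
      exact_mod_cast this
    have h4 : (16 * ((4 : ℕ) : ℝ)) ^ (a + b) ≤ 64 ^ 4 := by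
      push_cast
      norm_num
      calc (64 : ℝ) ^ (a + b) ≤ 64 ^ 4 := pow_le_pow_right₀ (by norm_num) hab
        _ = 16777216 := by norm_num
    calc (16 * ((4 : ℕ) : ℝ)) ^ (a + b) * ((((3 * n : ℕ) : ℝ))⁻¹) ^ (a + b) *
          (A * ub x + ((3 * n : ℕ) : ℝ) ^ 2 * (27 * (C0 / (R : ℝ) ^ 2)))
        ≤ 64 ^ 4 * ((t : ℝ)⁻¹) ^ (a + b) * ((A + 21) * ub x) := by
          gcongr
      _ = (64 ^ 4 * (A + 21) * ub x) * ((t : ℝ)⁻¹) ^ (a + b) := by ring
  refine ⟨?_, ?_⟩
  · intro y hy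
    rw [mem_box] at hy
    have : ρ y = 0 := by
      by_contra hne
      exact hy (hρs y hne)
    change lam y * ρ y * u y = 0
    rw [this]; ring
  · intro a b hab y
    by_cases hst : dn x y ≤ t + 4
    · have h1 := leibniz 4 lam ρ Λ P (t : ℝ)⁻¹ y (fun a b h => hlam a b h y)
        (fun a b i j h => hρ a b (by omega) _)
      have h2 := leibniz 4 (fun z => lam z * ρ z) u (16 * (Λ * P)) (64 ^ 4 * (A + 21) * ub x)
        (t : ℝ)⁻¹ y
        (fun a b h => (h1 a b h).trans (by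
          have hΛP : 0 ≤ Λ * P := by
            have := hlam 0 0 (by omega) y
            have h5 := hρ 0 0 (by omega) y
            simp only [add_zero, pow_zero, mul_one] at this h5
            exact mul_nonneg ((abs_nonneg _).trans this) ((abs_nonneg _).trans h5)
          apply mul_le_mul_of_nonneg_right _ (by positivity)
          apply mul_le_mul_of_nonneg_right _ hΛP
          calc (2 : ℝ) ^ (a + b) ≤ 2 ^ 4 := pow_le_pow_right₀ (by norm_num) h
            _ = 16 := by norm_num))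
        (fun a b i j h => hud a b (by omega) _ (by
          rw [dn_eq] at *
          simp only
          omega)) a b hab
      refine h2.trans ?_
      have hU : 0 ≤ 64 ^ 4 * (A + 21) * ub x := by
        have := hud 0 0 (by omega) x (by rw [dn_self]; omega)
        simp only [add_zero, pow_zero, mul_one] at this
        exact (abs_nonneg _).trans this
      have hΛP : 0 ≤ Λ * P := by
        have := hlam 0 0 (by omega) y
        have h5 := hρ 0 0 (by omega) y
        simp only [add_zero, pow_zero, mul_one] at this h5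
        exact mul_nonneg ((abs_nonneg _).trans this) ((abs_nonneg _).trans h5)
      apply mul_le_mul_of_nonneg_right _ (by positivity)
      calc (2 : ℝ) ^ (a + b) * (16 * (Λ * P) * (64 ^ 4 * (A + 21) * ub x))
          ≤ 2 ^ 4 * (16 * (Λ * P) * (64 ^ 4 * (A + 21) * ub x)) := by
            apply mul_le_mul_of_nonneg_right _ (by positivity)
            exact pow_le_pow_right₀ (by norm_num) hab
        _ = 256 * (Λ * P) * (64 ^ 4 * (A + 21) * ub x) := by ring
    · have h0 : (Dx^[a] (Dy^[b] (fun y => lam y * ρ y * u y))) y = 0 := by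
        apply D_zero_of_stencil
        intro i j hi hj
        have : ρ (y.1 + i, y.2 + j) = 0 := by
          by_contra hne
          have := hρs _ hne
          apply hst
          rw [dn_eq] at *
          simp only at this
          omega
        simp only [this]; ring
      rw [h0, abs_zero]
      have hU : 0 ≤ 64 ^ 4 * (A + 21) * ub x := by
        have := hud 0 0 (by omega) x (by rw [dn_self]; omega)
        simp only [add_zero, pow_zero, mul_one] at this
        exact (abs_nonneg _).trans this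
      have hΛP : 0 ≤ Λ * P := by
        have := hlam 0 0 (by omega) y
        have h5 := hρ 0 0 (by omega) y
        simp only [add_zero, pow_zero, mul_one] at this h5
        exact mul_nonneg ((abs_nonneg _).trans this) ((abs_nonneg _).trans h5)
      positivity

/-! ## one scale -/

open Classical in
/-- the active cells at scale `t` for the layer function `lam` -/
noncomputable def active (O : Set Pt) (t R : ℕ) (lam : Pt → ℝ) : Finset Pt :=
  (cellset t R).filter (fun k => ∃ z, lam z ≠ 0 ∧ rho t k z ≠ 0 ∧ z ∈ O)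

theorem sum_active {O : Set Pt} {t R : ℕ} {lam u : Pt → ℝ} (hu : ∀ x, x ∉ O → u x = 0)
    (hOR : ∀ x ∈ O, dn (0, 0) x ≤ R) (y : Pt) :
    ∑ k ∈ active O t R lam, lam y * rho t k y * u y = lam y * u y := by
  classical
  by_cases hy : y ∈ O
  · have h1 : ∑ k ∈ active O t R lam, lam y * rho t k y * u y =
        ∑ k ∈ cellset t R, lam y * rho t k y * u y := by
      apply Finset.sum_subset (Finset.filter_subset _ _)
      intro k hk hka
      by_contra hne
      apply hka
      rw [Finset.mem_filter]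
      refine ⟨hk, y, ?_, ?_, hy⟩
      · intro h0; apply hne; rw [h0]; ring
      · intro h0; apply hne; rw [h0]; ring
    rw [h1]
    have h2 : ∑ k ∈ cellset t R, lam y * rho t k y * u y =
        lam y * u y * ∑ k ∈ cellset t R, rho t k y := by
      rw [Finset.mul_sum]
      apply Finset.sum_congr rfl
      intro k _
      ring
    rw [h2, rho_sum (hOR y hy), mul_one]
  · rw [hu y hy]
    simp

theorem active_spec {O : Set Pt} {t R : ℕ} (ht : 1 ≤ t) {lam : Pt → ℝ} {k : Pt}
    (hk : k ∈ active O t R lam) : ∃ z ∈ O, lam z ≠ 0 ∧ dn (corner t k) z ≤ t := by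
  classical
  unfold active at hk
  rw [Finset.mem_filter] at hk
  obtain ⟨z, h1, h2, h3⟩ := hk.2
  exact ⟨z, h3, h1, rho_supp ht h2⟩

/-- comparison of the sum over cells with the sum over points -/
theorem sum_cells {O : Set Pt} {t R : ℕ} {lam ub : Pt → ℝ}
    {A : ℝ} (hA : 1 ≤ A) (hub0 : ∀ x, 0 ≤ ub x) {S : Finset Pt}
    (hcell : ∀ k ∈ active O t R lam, ∀ z, cidx t z = k →
      z ∈ S ∧ ub (corner t k) ≤ A * ub z) :
    (∑ k ∈ active O t R lam, ub (corner t k)) * (t : ℝ) ^ 2 ≤ 9 * A * ∑ z ∈ S, ub z := by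
  classical
  -- points of `S` in the active cells
  set S' := S.filter (fun z => cidx t z ∈ active O t R lam) with hS'
  have h1 : ∑ z ∈ S', ub z = ∑ k ∈ active O t R lam, ∑ z ∈ S'.filter (fun z => cidx t z = k), ub z := by
    rw [Finset.sum_fiberwise_of_maps_to]
    intro z hz
    exact (Finset.mem_filter.1 hz).2
  have h2 : ∑ z ∈ S', ub z ≤ ∑ z ∈ S, ub z :=
    Finset.sum_le_sum_of_subset_of_nonneg (Finset.filter_subset _ _) (fun x _ _ => hub0 x)
  have h3 : ∀ k ∈ active O t R lam, (cs t : ℝ) ^ 2 * ub (corner t k) ≤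
      A * ∑ z ∈ S'.filter (fun z => cidx t z = k), ub z := by
    intro k hk
    have hcard : cs t * cs t ≤ (S'.filter (fun z => cidx t z = k)).card := by
      have himg : ((range (cs t)) ×ˢ (range (cs t))).image
          (fun p : ℕ × ℕ => (((corner t k).1 + (p.1 : ℤ), (corner t k).2 + (p.2 : ℤ)) : Pt)) ⊆
          S'.filter (fun z => cidx t z = k) := by
        intro z hz
        rw [Finset.mem_image] at hz
        obtain ⟨⟨i, j⟩, hij, rfl⟩ := hz
        rw [Finset.mem_product, Finset.mem_range, Finset.mem_range] at hij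
        have hc := cidx_corner t k i j hij.1 hij.2
        rw [Finset.mem_filter, hS', Finset.mem_filter]
        exact ⟨⟨(hcell k hk _ hc).1, by rw [hc]; exact hk⟩, hc⟩
      have := Finset.card_le_card himg
      rw [Finset.card_image_of_injective, Finset.card_product, Finset.card_range] at this
      · exact this
      · rintro ⟨i, j⟩ ⟨i', j'⟩ h
        simp only [Prod.mk.injEq, add_right_inj, Nat.cast_inj] at h
        ext <;> simp [h.1, h.2]
    have hsum : ((S'.filter (fun z => cidx t z = k)).card : ℝ) * ub (corner t k) ≤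
        A * ∑ z ∈ S'.filter (fun z => cidx t z = k), ub z := by
      rw [← nsmul_eq_mul, ← Finset.sum_const, Finset.mul_sum]
      apply Finset.sum_le_sum
      intro z hz
      exact (hcell k hk z (Finset.mem_filter.1 hz).2).2
    refine le_trans ?_ hsum
    apply mul_le_mul_of_nonneg_right _ (hub0 _)
    have : ((cs t * cs t : ℕ) : ℝ) ≤ ((S'.filter (fun z => cidx t z = k)).card : ℝ) := by
      exact_mod_cast hcard
    push_cast at this
    nlinarith
  have h4 : (cs t : ℝ) ^ 2 * ∑ k ∈ active O t R lam, ub (corner t k) ≤ A * ∑ z ∈ S', ub z := by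
    rw [h1, Finset.mul_sum, Finset.mul_sum]
    exact Finset.sum_le_sum h3
  have h5 : (t : ℝ) ≤ 3 * cs t := by exact_mod_cast le_cs t
  have h6 : 0 ≤ ∑ k ∈ active O t R lam, ub (corner t k) := Finset.sum_nonneg (fun k _ => hub0 _)
  have h7 : (t : ℝ) ^ 2 ≤ 9 * (cs t : ℝ) ^ 2 := by
    have : (t : ℝ) ^ 2 ≤ (3 * cs t) ^ 2 := by gcongr
    linarith
  calc (∑ k ∈ active O t R lam, ub (corner t k)) * (t : ℝ) ^ 2
      ≤ (∑ k ∈ active O t R lam, ub (corner t k)) * (9 * (cs t : ℝ) ^ 2) := by gcongr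
    _ = 9 * ((cs t : ℝ) ^ 2 * ∑ k ∈ active O t R lam, ub (corner t k)) := by ring
    _ ≤ 9 * (A * ∑ z ∈ S, ub z) := by
        have : A * ∑ z ∈ S', ub z ≤ A * ∑ z ∈ S, ub z := by
          apply mul_le_mul_of_nonneg_left h2 (by linarith)
        linarith
    _ = 9 * A * ∑ z ∈ S, ub z := by ring

end Vale.Agent.P155.G45
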